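import Vale.Agent.P079.MathlibUsed
attribute [-instance] ProperSMul.toContinuousSMul IsTopologicalTorsor.toContinuousSMul IdemSemiring.toCanonicallyOrderedAdd IdemSemiring.toMulLeftMono IdemSemiring.toMulRightMono AddQuantale.instAddLeftMono AddQuantale.instAddRightMono Quantale.instMulLeftMono Quantale.instMulRightMono FiniteDimensional.rclike_to_real IsScalarTower.complexToReal FiniteDimensional.complexToReal

set_option linter.all false

section

section

open Filter Topology Set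

namespace Vale.Agent.P079

section Aux

variable {X : Type*} [NormedAddCommGroup X] [NormedSpace ℝ X]

/-- Norm-small convex combinations of a weakly null sequence. -/
theorem mazur_small (x : ℕ → X)
    (hx : ∀ f : StrongDual ℝ X, Tendsto (fun i => f (x i)) atTop (𝓝 0))
    {ε : ℝ} (hε : 0 < ε) :
    ∃ (M : ℕ) (w : ℕ → ℝ), (∀ i, 0 ≤ w i) ∧ (∑ i ∈ Finset.range M, w i = 1) ∧
      ‖∑ i ∈ Finset.range M, w i • x i‖ ≤ ε := by
  classical
  set S : Set X := {y | ∃ (M : ℕ) (w : ℕ → ℝ), (∀ i, 0 ≤ w i) ∧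
    (∑ i ∈ Finset.range M, w i = 1) ∧ y = ∑ i ∈ Finset.range M, w i • x i} with hS
  have hconv : Convex ℝ S := by
    rintro y ⟨M, w, hw, hw1, rfl⟩ y' ⟨M', w', hw', hw1', rfl⟩ a b ha hb hab
    have key : ∀ (K L : ℕ) (v : ℕ → ℝ), K ≤ L →
        (∑ i ∈ Finset.range L, (if i < K then v i else 0)) = ∑ i ∈ Finset.range K, v i := by
      intro K L v hKL
      rw [← Finset.sum_filter]
      congr 1
      ext i
      simp only [Finset.mem_filter, Finset.mem_range]
      omega
    have key2 : ∀ (K L : ℕ) (v : ℕ → ℝ), K ≤ L →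
        (∑ i ∈ Finset.range L, (if i < K then v i else 0) • x i) =
          ∑ i ∈ Finset.range K, v i • x i := by
      intro K L v hKL
      have : ∀ i ∈ Finset.range L, (if i < K then v i else 0) • x i =
          (if i < K then v i • x i else 0) := by
        intro i _
        split_ifs <;> simp
      rw [Finset.sum_congr rfl this, ← Finset.sum_filter]
      congr 1
      ext i
      simp only [Finset.mem_filter, Finset.mem_range]
      omega
    refine ⟨M + M', fun i => a * (if i < M then w i else 0) + b * (if i < M' then w' i else 0),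
      ?_, ?_, ?_⟩
    · intro i
      have h1 : 0 ≤ (if i < M then w i else 0) := by split_ifs; exacts [hw i, le_rfl]
      have h2 : 0 ≤ (if i < M' then w' i else 0) := by split_ifs; exacts [hw' i, le_rfl]
      (clear * - ha h1 hb h2; positivity)
    · rw [Finset.sum_add_distrib, ← Finset.mul_sum, ← Finset.mul_sum,
        key M (M + M') w (by omega), key M' (M + M') w' (by omega), hw1, hw1']
      linarith only [hab]
    · have : ∀ i ∈ Finset.range (M + M'),
          (a * (if i < M then w i else 0) + b * (if i < M' then w' i else 0)) • x i =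
          a • ((if i < M then w i else 0) • x i) + b • ((if i < M' then w' i else 0) • x i) := by
        intro i _
        rw [add_smul, mul_smul, mul_smul]
      rw [Finset.sum_congr rfl this, Finset.sum_add_distrib, ← Finset.smul_sum,
        ← Finset.smul_sum, key2 M (M + M') w (by omega), key2 M' (M + M') w' (by omega)]
  have hmem : ∀ i, x i ∈ S := by
    intro i
    refine ⟨i + 1, fun l => if l = i then 1 else 0, ?_, ?_, ?_⟩
    · intro l
      dsimp only
      split_ifs <;> norm_num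
    · simp
    · simp
  have h0 : (0 : X) ∈ closure S := by
    by_contra hcon
    obtain ⟨f, c, hf0, hfc⟩ := geometric_hahn_banach_point_closed hconv.closure isClosed_closure hcon
    rw [map_zero] at hf0
    have h1 : ∀ i, c ≤ f (x i) := fun i => (hfc _ (subset_closure (hmem i))).le
    have h2 : c ≤ 0 := ge_of_tendsto' (hx f) h1
    linarith only [hf0, h2]
  obtain ⟨y, ⟨M, w, hw, hw1, rfl⟩, hy⟩ := Metric.mem_closure_iff.1 h0 ε hε
  refine ⟨M, w, hw, hw1, ?_⟩
  rw [dist_zero_left] at hy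
  exact hy.le

/-- Dependent choice along `ℕ`. -/
theorem exists_seq_dep {S : Type*} (P : ℕ → S → Prop) (r : ℕ → S → S → Prop) (s0 : S)
    (h0 : P 0 s0) (h : ∀ i s, P i s → ∃ s', P (i + 1) s' ∧ r i s s') :
    ∃ f : ℕ → S, f 0 = s0 ∧ (∀ i, P i (f i)) ∧ ∀ i, r i (f i) (f (i + 1)) := by
  choose! g hg using h
  refine ⟨fun i => Nat.rec s0 (fun i s => g i s) i, rfl, ?_, ?_⟩
  · intro i
    induction i with
    | zero => exact h0
    | succ i ih => exact (hg i _ ih).1
  · intro i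
    have hP : ∀ i, P i (Nat.rec s0 (fun i s => g i s) i : S) := by
      intro i
      induction i with
      | zero => exact h0
      | succ i ih => exact (hg i _ ih).1
    exact (hg i _ (hP i)).2

/-- A pointwise null, norm bounded sequence of functionals is uniformly small on compact sets
transported by a 1-Lipschitz map. -/
theorem unif_small {C : Set X} (φ : ℕ → StrongDual ℝ X) (hφ1 : ∀ n, ‖φ n‖ ≤ 1)
    (hφC : ∀ v ∈ C, Tendsto (fun n => φ n v) atTop (𝓝 0))
    {Θ : X → X} (hΘ : MapsTo Θ C C) (hΘl : ∀ x ∈ C, ∀ y ∈ C, ‖Θ x - Θ y‖ ≤ ‖x - y‖)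
    {K : Set X} (hK : IsCompact K) (hKC : K ⊆ C) {δ : ℝ} (hδ : 0 < δ) :
    ∀ᶠ m in atTop, ∀ x ∈ K, φ m (Θ x) ≤ δ := by
  obtain ⟨t, htK, htfin, ht⟩ := hK.finite_cover_balls (half_pos hδ)
  have h1 : ∀ᶠ m in atTop, ∀ y ∈ t, φ m (Θ y) < δ / 2 := by
    rw [Filter.eventually_all_finite htfin]
    intro y hy
    exact (hφC _ (hΘ (hKC (htK hy)))).eventually (gt_mem_nhds (half_pos hδ))
  filter_upwards [h1] with m hm x hx
  obtain ⟨y, hy, hxy⟩ := mem_iUnion₂.1 (ht hx)
  have h2 : ‖Θ x - Θ y‖ ≤ δ / 2 := by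
    refine (hΘl x (hKC hx) y (hKC (htK hy))).trans ?_
    rw [Metric.mem_ball, dist_eq_norm] at hxy
    exact hxy.le
  have h3 : φ m (Θ x - Θ y) ≤ δ / 2 := by
    calc φ m (Θ x - Θ y) ≤ ‖φ m (Θ x - Θ y)‖ := le_abs_self _
      _ ≤ ‖φ m‖ * ‖Θ x - Θ y‖ := (φ m).le_opNorm _
      _ ≤ 1 * ‖Θ x - Θ y‖ := by gcongr; exact hφ1 m
      _ ≤ δ / 2 := by linarith only [h2]
  have h4 := hm y hy
  rw [map_sub] at h3
  linarith only [h3, h4]

end Aux

section Contexts

variable {X : Type*} [NormedAddCommGroup X] [NormedSpace ℝ X]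

/-- Contexts of weight `W` relative to a convex set `C` and a sequence `u`. -/
structure Ctx (C : Set X) (u : ℕ → X) (W : ℝ) (Ψ : X → X) : Prop where
  W0 : 0 ≤ W
  W1 : W ≤ 1
  maps : MapsTo Ψ C C
  lip : ∀ x ∈ C, ∀ y ∈ C, ‖Ψ x - Ψ y‖ ≤ W * ‖x - y‖
  far : ∀ δ > 0, ∀ᶠ n in atTop, ∀ x ∈ C, ‖Ψ x - u n‖ ≤ 1 - W + W * ‖x - u n‖ + δ

theorem Ctx.one (C : Set X) (u : ℕ → X) : Ctx C u 1 (fun x => x) where
  W0 := zero_le_one
  W1 := le_rfl
  maps := fun x hx => hx
  lip := fun x _ y _ => by simp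
  far := fun δ hδ => Eventually.of_forall fun n x _ => by linarith

theorem Ctx.comp {C : Set X} {u : ℕ → X} (hu : ∀ n, u n ∈ C) {W : ℝ} {Ψ : X → X}
    (h : Ctx C u W Ψ) {R : X → X} (hR : MapsTo R C C)
    (hRl : ∀ x ∈ C, ∀ y ∈ C, ‖R x - R y‖ ≤ ‖x - y‖)
    (hRu : Tendsto (fun n => ‖R (u n) - u n‖) atTop (𝓝 0)) :
    Ctx C u W (fun x => Ψ (R x)) where
  W0 := h.W0
  W1 := h.W1
  maps := fun x hx => h.maps (hR hx)
  lip := fun x hx y hy =>
    (h.lip _ (hR hx) _ (hR hy)).trans (mul_le_mul_of_nonneg_left (hRl x hx y hy) h.W0)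
  far := fun δ hδ => by
    filter_upwards [h.far (δ / 2) (half_pos hδ), hRu.eventually (gt_mem_nhds (half_pos hδ))]
      with n h1 h2 x hx
    have h3 := h1 (R x) (hR hx)
    have h4 : ‖R x - u n‖ ≤ ‖x - u n‖ + δ / 2 := by
      calc ‖R x - u n‖ = ‖(R x - R (u n)) + (R (u n) - u n)‖ := by congr 1; abel
        _ ≤ ‖R x - R (u n)‖ + ‖R (u n) - u n‖ := norm_add_le _ _
        _ ≤ ‖x - u n‖ + δ / 2 := add_le_add (hRl x hx _ (hu n)) h2.le
    have h5 : W * ‖R x - u n‖ ≤ W * ‖x - u n‖ + δ / 2 := by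
      calc W * ‖R x - u n‖ ≤ W * (‖x - u n‖ + δ / 2) := mul_le_mul_of_nonneg_left h4 h.W0
        _ = W * ‖x - u n‖ + W * (δ / 2) := by ring
        _ ≤ W * ‖x - u n‖ + 1 * (δ / 2) := by
            have := h.W1
            have h6 : 0 ≤ δ / 2 := (half_pos hδ).le
            nlinarith only [hδ, this]
        _ = W * ‖x - u n‖ + δ / 2 := by ring
    linarith only [h3, h5]

theorem Ctx.aff {C : Set X} (hconv : Convex ℝ C) (hdiam : ∀ x ∈ C, ∀ y ∈ C, ‖x - y‖ ≤ 1)
    {u : ℕ → X} (hu : ∀ n, u n ∈ C) {W : ℝ} {Ψ : X → X}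
    (h : Ctx C u W Ψ) {c : X} (hc : c ∈ C) {w : ℝ} (hw0 : 0 ≤ w) (hw1 : w ≤ 1) :
    Ctx C u (w * W) (fun x => Ψ ((1 - w) • c + w • x)) where
  W0 := mul_nonneg hw0 h.W0
  W1 := by
    have h1 := h.W0
    have h2 := h.W1
    nlinarith
  maps := fun x hx => h.maps (hconv hc hx (by linarith only [hw1]) hw0 (by ring))
  lip := fun x hx y hy => by
    have h1 := h.lip _ (hconv hc hx (by linarith) hw0 (by ring) : (1 - w) • c + w • x ∈ C)
      _ (hconv hc hy (by linarith) hw0 (by ring) : (1 - w) • c + w • y ∈ C)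
    have h2 : ((1 - w) • c + w • x) - ((1 - w) • c + w • y) = w • (x - y) := by
      rw [smul_sub]; abel
    rw [h2, norm_smul, Real.norm_of_nonneg hw0] at h1
    calc ‖Ψ ((1 - w) • c + w • x) - Ψ ((1 - w) • c + w • y)‖ ≤ W * (w * ‖x - y‖) := h1
      _ = w * W * ‖x - y‖ := by ring
  far := fun δ hδ => by
    filter_upwards [h.far δ hδ] with n h1 x hx
    have h2 := h1 _ (hconv hc hx (by linarith only [hw1]) hw0 (by ring) : (1 - w) • c + w • x ∈ C)
    have h3 : ‖((1 - w) • c + w • x) - u n‖ ≤ (1 - w) + w * ‖x - u n‖ := by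
      have : ((1 - w) • c + w • x) - u n = (1 - w) • (c - u n) + w • (x - u n) := by
        rw [smul_sub, smul_sub, sub_smul, sub_smul, one_smul, one_smul]; abel
      rw [this]
      calc ‖(1 - w) • (c - u n) + w • (x - u n)‖ ≤ ‖(1 - w) • (c - u n)‖ + ‖w • (x - u n)‖ :=
            norm_add_le _ _
        _ = (1 - w) * ‖c - u n‖ + w * ‖x - u n‖ := by
            rw [norm_smul, norm_smul, Real.norm_of_nonneg hw0,
              Real.norm_of_nonneg (by linarith only [hw1] : 0 ≤ 1 - w)]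
        _ ≤ (1 - w) * 1 + w * ‖x - u n‖ := by
            have := hdiam c hc (u n) (hu n)
            have h4 : 0 ≤ 1 - w := by linarith only [hw1]
            (clear * - this hw1; gcongr)
        _ = (1 - w) + w * ‖x - u n‖ := by ring
    have h4 := mul_le_mul_of_nonneg_left h3 h.W0
    calc ‖Ψ ((1 - w) • c + w • x) - u n‖
        ≤ 1 - W + W * ‖((1 - w) • c + w • x) - u n‖ + δ := h2
      _ ≤ 1 - W + W * ((1 - w) + w * ‖x - u n‖) + δ := by linarith only [h4]
      _ = 1 - w * W + w * W * ‖x - u n‖ + δ := by ring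

/-- `Mass D t y`: the point `y` is `t` times a point of `D`. -/
def Mass (D : Set X) (t : ℝ) (y : X) : Prop := ∃ c ∈ D, y = t • c

theorem Mass.add {D : Set X} (hD : Convex ℝ D) {s t : ℝ} {x y : X} (hs : 0 ≤ s) (ht : 0 ≤ t)
    (hx : Mass D s x) (hy : Mass D t y) : Mass D (s + t) (x + y) := by
  obtain ⟨c, hc, rfl⟩ := hx
  obtain ⟨c', hc', rfl⟩ := hy
  rcases eq_or_lt_of_le (add_nonneg hs ht) with h | h
  · have h1 : s = 0 := by linarith
    have h2 : t = 0 := by linarith only [ht, hs, h]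
    exact ⟨c, hc, by simp [h1, h2]⟩
  · refine ⟨(s / (s + t)) • c + (t / (s + t)) • c', hD hc hc' (by (clear * - hs h; positivity)) (by (clear * - ht h; positivity))
      (by (clear * - h; field_simp)), ?_⟩
    rw [smul_add, smul_smul, smul_smul]
    congr 2 <;> (clear * - h; field_simp)

theorem Mass.sum {D : Set X} (hD : Convex ℝ D) (hne : D.Nonempty) (w : ℕ → ℝ) (hw : ∀ i, 0 ≤ w i)
    (y : ℕ → X) (i : ℕ) (hy : ∀ l < i, y l ∈ D) :
    Mass D (∑ l ∈ Finset.range i, w l) (∑ l ∈ Finset.range i, w l • y l) := by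
  induction i with
  | zero =>
    obtain ⟨c, hc⟩ := hne
    exact ⟨c, hc, by simp⟩
  | succ i ih =>
    rw [Finset.sum_range_succ, Finset.sum_range_succ]
    exact Mass.add hD (Finset.sum_nonneg fun l _ => hw l) (hw i)
      (ih fun l hl => hy l (by omega)) ⟨y i, hy i (by omega), rfl⟩

end Contexts

end Vale.Agent.P079
end
end

section

section

open Filter Topology Set

namespace Vale.Agent.P079

variable {X : Type*} [NormedAddCommGroup X] [NormedSpace ℝ X]

/-- The step lemma. -/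
theorem step_lemma {C : Set X} (hconv : Convex ℝ C)
    (hdiam : ∀ x ∈ C, ∀ y ∈ C, ‖x - y‖ ≤ 1)
    (u : ℕ → X) (hu : ∀ n, u n ∈ C) {R : X → X} (hR : MapsTo R C C)
    (hRl : ∀ x ∈ C, ∀ y ∈ C, ‖R x - R y‖ ≤ ‖x - y‖)
    (hRu : Tendsto (fun n => ‖R (u n) - u n‖) atTop (𝓝 0))
    (φ : ℕ → StrongDual ℝ X) (hφ1 : ∀ n, ‖φ n‖ ≤ 1)
    (hφu : Tendsto (fun n => φ n (u n)) atTop (𝓝 1))
    (hφC : ∀ v ∈ C, Tendsto (fun n => φ n v) atTop (𝓝 0))
    (h0 : (0 : X) ∈ C)
    (hweak : ∀ f : StrongDual ℝ X, Tendsto (fun n => f (u n)) atTop (𝓝 0))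
    (F : StrongDual ℝ X) (J : ℝ) (hJ : 0 ≤ J) (hF : ‖F‖ ≤ J) (n : ℕ) (c c' : ℝ)
    (hc : c + J * ‖R (u n) - u n‖ ≤ c') (N : ℕ)
    (hA : ∀ n' ≥ N, ∀ W Ψ, Ctx C u W Ψ →
      (φ n' - F) (Ψ (u n')) - (φ n' - F) (Ψ (u n)) ≤ (J + 1 - c') * W)
    {W : ℝ} {Ψ : X → X} (hΨ : Ctx C u W Ψ) :
    F (Ψ (u n)) - F (Ψ (R 0)) ≤ (J - c) * W := by
  classical
  have hFle : ∀ x : X, F x ≤ J * ‖x‖ := fun x =>
    (le_abs_self _).trans ((F.le_opNorm x).trans (mul_le_mul_of_nonneg_right hF (norm_nonneg _)))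
  have hφle : ∀ m (x : X), φ m x ≤ ‖x‖ := fun m x =>
    (le_abs_self _).trans (((φ m).le_opNorm x).trans
      ((mul_le_mul_of_nonneg_right (hφ1 m) (norm_nonneg _)).trans_eq (one_mul _)))
  have hW0 := hΨ.W0
  have hW1 := hΨ.W1
  -- the composite `Ψ ∘ R`
  have hΘ : Ctx C u W (fun x => Ψ (R x)) := hΨ.comp hu hR hRl hRu
  refine le_of_forall_pos_le_add fun ε hε => ?_
  obtain ⟨e, he0, heε⟩ : ∃ e : ℝ, 0 < e ∧ (4 + J) * e ≤ ε := by
    have h4J : 0 < 4 + J := by linarith only [hJ]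
    exact ⟨ε / (4 + J), div_pos hε h4J, by rw [mul_div_cancel₀ _ h4J.ne']⟩
  set d : ℕ → ℝ := fun i => e * (1 / 2) ^ (i + 1) with hd
  have hdpos : ∀ i, 0 < d i := fun i => by (clear * - he0; positivity)
  have hdsum : ∀ i, ∑ l ∈ Finset.range i, d l ≤ e := by
    intro i
    have h1 : ∑ l ∈ Finset.range i, d l = e * (1 - (1 / 2) ^ i) := by
      induction i with
      | zero => simp
      | succ i ih =>
        rw [Finset.sum_range_succ, ih]
        simp only [hd]
        ring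
    rw [h1]
    have h2 : (0 : ℝ) ≤ (1 / 2) ^ i := by positivity
    nlinarith only [he0, h2]
  -- finite sets of earlier points
  set H : ℕ → Set X := fun L => insert (u n) (u '' {l | l ≤ L}) with hH
  have hHfin : ∀ L, (H L).Finite := fun L => ((finite_le_nat L).image u).insert _
  have hHC : ∀ L, convexHull ℝ (H L) ⊆ C := by
    intro L
    refine convexHull_min ?_ hconv
    rintro y (rfl | ⟨l, _, rfl⟩)
    · exact hu n
    · exact hu l
  -- the properties required from the next index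
  have hE : ∀ i L : ℕ, ∀ᶠ m in atTop, ‖R (u m) - u m‖ ≤ d i ∧ 1 - d i ≤ φ m (u m) ∧
      (∀ x ∈ C, ‖Ψ x - u m‖ ≤ 1 - W + W * ‖x - u m‖ + d i) ∧
      (∀ x ∈ convexHull ℝ (H L), φ m (Ψ (R x)) ≤ d i) ∧ N ≤ m := by
    intro i L
    have h1 : ∀ᶠ m in atTop, ‖R (u m) - u m‖ < d i := hRu.eventually (gt_mem_nhds (hdpos i))
    have h2 : ∀ᶠ m in atTop, 1 - d i < φ m (u m) :=
      hφu.eventually (lt_mem_nhds (by linarith only [hdpos i]))
    have h3 := hΨ.far (d i) (hdpos i)
    have hΘl : ∀ x ∈ C, ∀ y ∈ C, ‖Ψ (R x) - Ψ (R y)‖ ≤ ‖x - y‖ := by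
      intro x hx y hy
      refine (hΘ.lip x hx y hy).trans ?_
      have := norm_nonneg (x - y)
      nlinarith only [hW1, this]
    have h4 := unif_small φ hφ1 hφC hΘ.maps hΘl ((hHfin L).isCompact_convexHull ℝ) (hHC L) (hdpos i)
    filter_upwards [h1, h2, h3, h4, eventually_ge_atTop N] with m a1 a2 a3 a4 a5
    exact ⟨a1.le, a2.le, a3, a4, a5⟩
  simp only [eventually_atTop] at hE
  choose g hg using hE
  obtain ⟨m, hm0, hms⟩ : ∃ m : ℕ → ℕ, m 0 = g 0 0 ∧
      ∀ i, m (i + 1) = max (g (i + 1) (m i)) (m i + 1) :=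
    ⟨fun i => Nat.rec (g 0 0) (fun i mi => max (g (i + 1) mi) (mi + 1)) i, rfl, fun i => rfl⟩
  have hmono : StrictMono m := by
    refine strictMono_nat_of_lt_succ fun i => ?_
    rw [hms]
    exact lt_of_lt_of_le (Nat.lt_succ_self _) (le_max_right _ _)
  obtain ⟨L, hL0, hLs⟩ : ∃ L : ℕ → ℕ, L 0 = 0 ∧ ∀ i, L (i + 1) = m i :=
    ⟨fun i => Nat.casesOn i 0 (fun i => m i), rfl, fun i => rfl⟩
  have hprop : ∀ i, ‖R (u (m i)) - u (m i)‖ ≤ d i ∧ 1 - d i ≤ φ (m i) (u (m i)) ∧
      (∀ x ∈ C, ‖Ψ x - u (m i)‖ ≤ 1 - W + W * ‖x - u (m i)‖ + d i) ∧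
      (∀ x ∈ convexHull ℝ (H (L i)), φ (m i) (Ψ (R x)) ≤ d i) ∧ N ≤ m i := by
    intro i
    cases i with
    | zero =>
      rw [hL0]
      exact hg 0 0 (m 0) (by rw [hm0])
    | succ i =>
      rw [hLs]
      exact hg (i + 1) (m i) (m (i + 1)) (by rw [hms]; exact le_max_left _ _)
  -- Mazur
  obtain ⟨M, w, hw0, hw1, hwM⟩ := mazur_small (fun i => u (m i))
    (fun f => (hweak f).comp hmono.tendsto_atTop) he0
  -- the polygonal path
  set s : ℕ → ℝ := fun i => ∑ l ∈ Finset.range i, w l with hs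
  have hs0 : ∀ i, 0 ≤ s i := fun i => Finset.sum_nonneg fun l _ => hw0 l
  have hss : ∀ i, s (i + 1) = s i + w i := fun i => Finset.sum_range_succ _ _
  have hs1 : ∀ i ≤ M, s i ≤ 1 := by
    intro i hi
    rw [← hw1]
    exact Finset.sum_le_sum_of_subset_of_nonneg (Finset.range_mono hi) fun l _ _ => hw0 l
  set K : ℕ → X := fun i => ∑ l ∈ Finset.range i, w l • u (m l) + (1 - s i) • u n with hK
  have hKmem : ∀ D : Set X, Convex ℝ D → u n ∈ D → ∀ i ≤ M, (∀ l < i, u (m l) ∈ D) → K i ∈ D := by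
    intro D hD hn i hi hl
    have h1 : Mass D (s i) (∑ l ∈ Finset.range i, w l • u (m l)) :=
      Mass.sum hD ⟨_, hn⟩ w hw0 (fun l => u (m l)) i hl
    have h2 : Mass D (1 - s i) ((1 - s i) • u n) := ⟨u n, hn, rfl⟩
    have h3 := Mass.add hD (hs0 i) (by linarith only [hs1 i hi]) h1 h2
    obtain ⟨q, hq, hq'⟩ := h3
    have h4 : K i = q := by
      rw [hK]
      dsimp only
      rw [hq']
      rw [show s i + (1 - s i) = 1 by ring, one_smul]
    rw [h4]
    exact hq
  have hKC : ∀ i ≤ M, K i ∈ C := fun i hi => hKmem C hconv (hu n) i hi fun l _ => hu _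
  have hKH : ∀ i ≤ M, K i ∈ convexHull ℝ (H (L i)) := by
    intro i hi
    refine hKmem _ (convex_convexHull ℝ _) (subset_convexHull ℝ _ (mem_insert _ _)) i hi ?_
    intro l hl
    refine subset_convexHull ℝ _ (mem_insert_of_mem _ ⟨m l, ?_, rfl⟩)
    obtain ⟨i', rfl⟩ : ∃ i', i = i' + 1 := ⟨i - 1, by omega⟩
    rw [Set.mem_ofPred_eq, hLs]
    exact hmono.monotone (by omega)
  -- one step of the path
  have hstep : ∀ i, i + 1 ≤ M →
      F (Ψ (R (K i))) - F (Ψ (R (K (i + 1)))) ≤ (J - c') * (w i * W) + 4 * d i := by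
    intro i hi
    obtain ⟨p1, p2, p3, p4, p5⟩ := hprop i
    have hwi1 : w i ≤ 1 := by
      have := hs1 (i + 1) hi
      rw [hss] at this
      linarith only [this, hs0 i]
    -- the base point
    obtain ⟨b, hb, hbeq⟩ : Mass C (1 - w i)
        (∑ l ∈ Finset.range i, w l • u (m l) + (1 - s (i + 1)) • u n) := by
      have h1 : Mass C (s i) (∑ l ∈ Finset.range i, w l • u (m l)) :=
        Mass.sum hconv ⟨_, h0⟩ w hw0 (fun l => u (m l)) i fun l _ => hu _
      have h2 : Mass C (1 - s (i + 1)) ((1 - s (i + 1)) • u n) := ⟨u n, hu n, rfl⟩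
      have h3 := Mass.add hconv (hs0 i) (by linarith only [hs1 (i + 1) hi]) h1 h2
      rw [hss, show s i + (1 - (s i + w i)) = 1 - w i by ring] at h3
      rw [hss]
      exact h3
    have hKi : K i = (1 - w i) • b + w i • u n := by
      rw [← hbeq, hK]
      dsimp only
      rw [hss, add_assoc, ← add_smul]
      congr 2
      ring
    have hKi1 : K (i + 1) = (1 - w i) • b + w i • u (m i) := by
      rw [← hbeq, hK]
      dsimp only
      rw [Finset.sum_range_succ]
      abel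
    have hctx : Ctx C u (w i * W) (fun x => Ψ (R ((1 - w i) • b + w i • x))) :=
      hΘ.aff hconv hdiam hu hb (hw0 i) hwi1
    have hA1 := hA (m i) p5 _ _ hctx
    rw [← hKi, ← hKi1] at hA1
    simp only [sub_apply] at hA1
    -- lower bound for `φ (m i)` at the new point
    have hdist : ‖K (i + 1) - u (m i)‖ ≤ 1 - w i := by
      have h1 : K (i + 1) - u (m i) = (1 - w i) • (b - u (m i)) := by
        rw [hKi1, smul_sub, sub_smul, sub_smul, one_smul, one_smul]
        abel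
      rw [h1, norm_smul, Real.norm_of_nonneg (by linarith only [hwi1])]
      have := hdiam b hb (u (m i)) (hu _)
      nlinarith only [hwi1, this]
    have hRK : ‖R (K (i + 1)) - u (m i)‖ ≤ 1 - w i + d i := by
      calc ‖R (K (i + 1)) - u (m i)‖
          = ‖(R (K (i + 1)) - R (u (m i))) + (R (u (m i)) - u (m i))‖ := by congr 1; abel
        _ ≤ ‖R (K (i + 1)) - R (u (m i))‖ + ‖R (u (m i)) - u (m i)‖ := norm_add_le _ _
        _ ≤ (1 - w i) + d i :=
            add_le_add ((hRl _ (hKC _ hi) _ (hu _)).trans hdist) p1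
    have hlow : W * w i - 3 * d i ≤ φ (m i) (Ψ (R (K (i + 1)))) := by
      have h1 := p3 (R (K (i + 1))) (hR (hKC _ hi))
      have h2 : φ (m i) (u (m i) - Ψ (R (K (i + 1)))) ≤ ‖Ψ (R (K (i + 1))) - u (m i)‖ := by
        rw [← norm_neg (Ψ (R (K (i + 1))) - u (m i)), neg_sub]
        exact hφle _ _
      rw [map_sub] at h2
      have h3 : W * ‖R (K (i + 1)) - u (m i)‖ ≤ W * (1 - w i) + d i := by
        have h4 := mul_le_mul_of_nonneg_left hRK hW0
        have h5 := (hdpos i).le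
        nlinarith only [h4, hW1, h5]
      have h6 : W * (1 - w i) = W - W * w i := by ring
      linarith only [p2, h1, h2, h3]
    have hup : φ (m i) (Ψ (R (K i))) ≤ d i := p4 _ (hKH i (by omega))
    have h7 : (J + 1 - c') * (w i * W) = (J - c') * (w i * W) + W * w i := by ring
    linarith only [hA1, hlow, hup]
  have htele : ∀ i ≤ M, F (Ψ (R (K 0))) - F (Ψ (R (K i))) ≤
      (J - c') * (s i * W) + 4 * ∑ l ∈ Finset.range i, d l := by
    intro i
    induction i with
    | zero => intro _; simp [hs]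
    | succ i ih =>
      intro hi
      have h1 := ih (by omega)
      have h2 := hstep i hi
      rw [Finset.sum_range_succ, hss]
      have h3 : (J - c') * ((s i + w i) * W) = (J - c') * (s i * W) + (J - c') * (w i * W) := by
        ring
      linarith only [h1, h2]
  have hM := htele M le_rfl
  have hsM : s M = 1 := hw1
  have hK0 : K 0 = u n := by simp only [hK, hs, Finset.range_zero, Finset.sum_empty, sub_zero, one_smul, zero_add]
  have hKM : ‖K M‖ ≤ e := by
    have : K M = ∑ l ∈ Finset.range M, w l • u (m l) := by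
      rw [hK]
      dsimp only
      rw [hsM, sub_self, zero_smul, add_zero]
    rw [this]
    exact hwM
  rw [hK0, hsM, one_mul] at hM
  -- endpoints
  have h1 : F (Ψ (u n)) - F (Ψ (R (u n))) ≤ J * (W * ‖R (u n) - u n‖) := by
    rw [← map_sub]
    refine (hFle _).trans (mul_le_mul_of_nonneg_left ?_ hJ)
    rw [← norm_neg (R (u n) - u n), neg_sub]
    exact hΨ.lip _ (hu n) _ (hR (hu n))
  have h2 : F (Ψ (R (K M))) - F (Ψ (R 0)) ≤ J * e := by
    rw [← map_sub]
    refine (hFle _).trans (mul_le_mul_of_nonneg_left ?_ hJ)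
    have h3 := hΘ.lip _ (hKC M le_rfl) _ h0
    rw [sub_zero] at h3
    have h4 : W * ‖K M‖ ≤ e := by
      have := norm_nonneg (K M)
      nlinarith only [hW0, hKM, hW1, he0]
    exact h3.trans h4
  have h3 := hdsum M
  have h4 : (J - c') * W + J * (W * ‖R (u n) - u n‖) ≤ (J - c) * W := by
    have h5 := mul_le_mul_of_nonneg_left hc hW0
    nlinarith only [h5]
  linarith

end Vale.Agent.P079
end
end

section

section

open Filter Topology Set

namespace Vale.Agent.P079

variable {X : Type*} [NormedAddCommGroup X] [NormedSpace ℝ X]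

/-- Main combinatorial theorem: the alternating functionals are simultaneously large. -/
theorem core (C : Set X) (hconv : Convex ℝ C) (h0 : (0 : X) ∈ C)
    (hdiam : ∀ x ∈ C, ∀ y ∈ C, ‖x - y‖ ≤ 1)
    (R : ℕ → X → X) (hRmaps : ∀ n, MapsTo (R n) C C)
    (hRne : ∀ n, ∀ x ∈ C, ∀ y ∈ C, ‖R n x - R n y‖ ≤ ‖x - y‖)
    (hfix : ∀ k, Tendsto (fun n => ‖R k (R n 0) - R n 0‖) atTop (𝓝 0))
    (φ : ℕ → StrongDual ℝ X) (hφ1 : ∀ n, ‖φ n‖ ≤ 1)
    (hφu : Tendsto (fun n => φ n (R n 0)) atTop (𝓝 1))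
    (hφC : ∀ v ∈ C, Tendsto (fun n => φ n v) atTop (𝓝 0))
    (hweak : ∀ f : StrongDual ℝ X, Tendsto (fun n => f (R n 0)) atTop (𝓝 0)) :
    ∃ ν : ℕ → ℕ, StrictMono ν ∧ ∃ g : ℕ → X, (∀ i, ‖g i‖ ≤ 1) ∧
      (∀ i, g i ∈ Submodule.span ℝ C) ∧
      ∀ i, ∀ l ≤ i, 1 / 2 < (-1 : ℝ) ^ l * φ (ν l) (g i) := by
  classical
  set u : ℕ → X := fun n => R n 0 with hu_def
  have hu : ∀ n, u n ∈ C := fun n => hRmaps n h0
  -- the constants
  set c : ℕ → ℝ := fun i => 1 / 2 - (1 / 2) ^ (i + 2) with hc_def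
  -- state predicate: `(F, k, n)` at stage `i`, `F` of length `i + 2`
  let P : ℕ → (StrongDual ℝ X × ℕ × ℕ) → Prop := fun i s =>
    ‖s.1‖ ≤ (i : ℝ) + 2 ∧ s.2.1 < s.2.2 ∧
    ((i : ℝ) + 2) * ‖R s.2.1 (u s.2.2) - u s.2.2‖ ≤ (1 / 2) ^ (i + 3) ∧
    ∃ (W : ℝ) (Ψ : X → X), Ctx C u W Ψ ∧
      ((i : ℝ) + 2 - c i) * W < s.1 (Ψ (u s.2.2)) - s.1 (Ψ (u s.2.1))
  let r : ℕ → (StrongDual ℝ X × ℕ × ℕ) → (StrongDual ℝ X × ℕ × ℕ) → Prop := fun _ s s' =>
    s'.1 = φ s'.2.2 - s.1 ∧ s'.2.1 = s.2.2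
  -- initial state
  obtain ⟨s0, hs0, hs0F⟩ : ∃ s0, P 0 s0 ∧ s0.1 = φ s0.2.2 - φ s0.2.1 := by
    have e1 : ∀ᶠ k in atTop, 1 - 1 / 16 < φ k (u k) :=
      hφu.eventually (lt_mem_nhds (by norm_num))
    obtain ⟨k, hk⟩ := e1.exists
    have e2 : ∀ᶠ n in atTop, φ k (u n) < 1 / 16 :=
      (hweak (φ k)).eventually (gt_mem_nhds (by norm_num))
    have e3 : ∀ᶠ n in atTop, φ n (u k) < 1 / 16 :=
      (hφC _ (hu k)).eventually (gt_mem_nhds (by norm_num))
    have e4 : ∀ᶠ n in atTop, ‖R k (u n) - u n‖ < 1 / 16 :=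
      (hfix k).eventually (gt_mem_nhds (by norm_num))
    obtain ⟨n, h1, h2, h3, h4, h5⟩ :=
      (e1.and (e2.and (e3.and (e4.and (eventually_gt_atTop k))))).exists
    refine ⟨(φ n - φ k, k, n), ⟨?_, h5, ?_, 1, fun x => x, Ctx.one C u, ?_⟩, rfl⟩
    · calc ‖φ n - φ k‖ ≤ ‖φ n‖ + ‖φ k‖ := norm_sub_le _ _
        _ ≤ 1 + 1 := add_le_add (hφ1 n) (hφ1 k)
        _ = ((0 : ℕ) : ℝ) + 2 := by norm_num
    · norm_num
      linarith only [h4]
    · simp only [sub_apply, hc_def]
      norm_num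
      linarith only [hk, h1, h2, h3]
  -- inductive step
  have hnext : ∀ i s, P i s → ∃ s', P (i + 1) s' ∧ r i s s' := by
    rintro i ⟨F, k, n⟩ ⟨hF, hkn, hpair, W, Ψ, hΨ, hbad⟩
    dsimp only at hF hkn hpair hbad
    -- a threshold for the next index
    have e4 : ∀ᶠ n' in atTop, ‖R n (u n') - u n'‖ < (1 / 2) ^ (i + 4) / ((i : ℝ) + 3) :=
      (hfix n).eventually (gt_mem_nhds (by (clear * -; positivity)))
    obtain ⟨N, hN⟩ := eventually_atTop.1 (e4.and (eventually_gt_atTop n))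
    by_contra hcon
    push Not at hcon
    have hA : ∀ n' ≥ N, ∀ W Ψ, Ctx C u W Ψ →
        (φ n' - F) (Ψ (u n')) - (φ n' - F) (Ψ (u n)) ≤ (((i : ℝ) + 2) + 1 - c (i + 1)) * W := by
      intro n' hn' W' Ψ' hΨ'
      by_contra hlt
      rw [not_le] at hlt
      refine hcon (φ n' - F, n, n') ⟨?_, (hN n' hn').2, ?_, W', Ψ', hΨ', ?_⟩ ⟨rfl, rfl⟩
      · calc ‖φ n' - F‖ ≤ ‖φ n'‖ + ‖F‖ := norm_sub_le _ _
          _ ≤ 1 + ((i : ℝ) + 2) := add_le_add (hφ1 n') hF
          _ = ((i + 1 : ℕ) : ℝ) + 2 := by push_cast; ring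
      · have h1 := (hN n' hn').1.le
        rw [le_div_iff₀ (by (clear * -; positivity))] at h1
        dsimp only
        push_cast
        calc ((i : ℝ) + 1 + 2) * ‖R n (u n') - u n'‖ = ‖R n (u n') - u n'‖ * ((i : ℝ) + 3) := by ring
          _ ≤ (1 / 2) ^ (i + 4) := h1
          _ = (1 / 2) ^ (i + 1 + 3) := by ring
      · dsimp only
        push_cast
        calc ((i : ℝ) + 1 + 2 - c (i + 1)) * W' = (((i : ℝ) + 2) + 1 - c (i + 1)) * W' := by ring
          _ < _ := hlt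
    have hcc : c i + ((i : ℝ) + 2) * ‖R k (u n) - u n‖ ≤ c (i + 1) := by
      have : c (i + 1) - c i = (1 / 2) ^ (i + 3) := by
        simp only [hc_def]
        ring
      linarith only [hpair, this]
    have := step_lemma hconv hdiam u hu (hRmaps k) (hRne k) (hfix k) φ hφ1 hφu hφC h0 hweak F
      ((i : ℝ) + 2) (by (clear * -; positivity)) hF n (c i) (c (i + 1)) hcc N hA hΨ
    exact absurd this (not_le.2 hbad)
  obtain ⟨f, hf0, hfP, hfr⟩ := exists_seq_dep P r s0 hs0 hnext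
  -- the sequence of indices
  set ν : ℕ → ℕ := fun i => (f i).2.1 with hν
  have hν1 : ∀ i, (f i).2.2 = ν (i + 1) := fun i => (hfr i).2.symm
  have hνmono : StrictMono ν := by
    refine strictMono_nat_of_lt_succ fun i => ?_
    rw [← hν1]
    exact (hfP i).2.1
  -- the functionals as alternating sums
  have hFsum : ∀ i (x : X), (-1 : ℝ) ^ (i + 1) * (f i).1 x =
      ∑ l ∈ Finset.range (i + 2), (-1 : ℝ) ^ l * φ (ν l) x := by
    intro i x
    induction i with
    | zero =>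
      have h1 : (f 0).1 = φ (ν 1) - φ (ν 0) := by
        have : (f 0).1 = φ (f 0).2.2 - φ (f 0).2.1 := by rw [hf0]; exact hs0F
        rw [this, hν1]
      rw [h1]
      simp only [sub_apply, Finset.sum_range_succ, Finset.sum_range_zero]
      ring
    | succ i ih =>
      rw [Finset.sum_range_succ, ← ih]
      have h1 : (f (i + 1)).1 = φ (ν (i + 2)) - (f i).1 := by
        have := (hfr i).1
        rw [hν1] at this
        exact this
      rw [h1]
      simp only [sub_apply]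
      ring
  -- the vectors
  have hvec : ∀ i : ℕ, ∃ g : X, ‖g‖ ≤ 1 ∧ g ∈ Submodule.span ℝ C ∧
      (i : ℝ) + 2 - 1 / 2 < ∑ l ∈ Finset.range (i + 2), (-1 : ℝ) ^ l * φ (ν l) g := by
    intro i
    obtain ⟨hF, hkn, hpair, W, Ψ, hΨ, hbad⟩ := hfP i
    have hxy : ‖Ψ (u (f i).2.2) - Ψ (u (f i).2.1)‖ ≤ W := by
      have h1 := hΨ.lip _ (hu (f i).2.2) _ (hu (f i).2.1)
      have h2 := hdiam _ (hu (f i).2.2) _ (hu (f i).2.1)
      have h3 := hΨ.W0
      nlinarith only [h1, h2, h3]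
    have hWpos : 0 < W := by
      rcases eq_or_lt_of_le hΨ.W0 with h | h
      · exfalso
        rw [← h] at hxy hbad
        have h1 : Ψ (u (f i).2.2) - Ψ (u (f i).2.1) = 0 := norm_le_zero_iff.1 hxy
        rw [← map_sub, h1, map_zero, mul_zero] at hbad
        exact lt_irrefl _ hbad
      · exact h
    refine ⟨(-1 : ℝ) ^ (i + 1) • (W⁻¹ • (Ψ (u (f i).2.2) - Ψ (u (f i).2.1))), ?_, ?_, ?_⟩
    · rw [norm_smul, norm_smul, norm_pow, norm_neg, norm_one, one_pow, one_mul, norm_inv,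
        Real.norm_of_nonneg hWpos.le, inv_mul_le_iff₀ hWpos, mul_one]
      exact hxy
    · exact Submodule.smul_mem _ _ (Submodule.smul_mem _ _ (Submodule.sub_mem _
        (Submodule.subset_span (hΨ.maps (hu _))) (Submodule.subset_span (hΨ.maps (hu _)))))
    · rw [← hFsum, map_smul, map_smul, smul_eq_mul, smul_eq_mul, ← mul_assoc, ← pow_add,
        ← two_mul, pow_mul, neg_one_sq, one_pow, one_mul, map_sub]
      rw [← mul_lt_mul_iff_of_pos_left hWpos, mul_inv_cancel_left₀ hWpos.ne']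
      refine lt_of_le_of_lt ?_ hbad
      have h1 : (i : ℝ) + 2 - 1 / 2 ≤ (i : ℝ) + 2 - c i := by
        have : (0 : ℝ) ≤ (1 / 2) ^ (i + 2) := by positivity
        simp only [hc_def]
        linarith only [this]
      nlinarith only [hWpos, h1]
  choose g hg1 hg2 hg3 using hvec
  refine ⟨ν, hνmono, g, hg1, hg2, ?_⟩
  intro i l hl
  by_contra hcon
  rw [not_lt] at hcon
  have hterm : ∀ l' ∈ Finset.range (i + 2), l' ≠ l → (-1 : ℝ) ^ l' * φ (ν l') (g i) ≤ 1 := by
    intro l' _ _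
    calc (-1 : ℝ) ^ l' * φ (ν l') (g i) ≤ ‖(-1 : ℝ) ^ l' * φ (ν l') (g i)‖ := le_abs_self _
      _ = ‖φ (ν l') (g i)‖ := by rw [norm_mul, norm_pow, norm_neg, norm_one, one_pow, one_mul]
      _ ≤ ‖φ (ν l')‖ * ‖g i‖ := (φ (ν l')).le_opNorm _
      _ ≤ 1 * 1 := mul_le_mul (hφ1 _) (hg1 i) (norm_nonneg _) zero_le_one
      _ = 1 := one_mul 1
  have hlmem : l ∈ Finset.range (i + 2) := Finset.mem_range.2 (by omega)
  have hsum : ∑ l' ∈ Finset.range (i + 2), (-1 : ℝ) ^ l' * φ (ν l') (g i) ≤ (i : ℝ) + 1 + 1 / 2 := by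
    rw [← Finset.add_sum_erase _ _ hlmem]
    have h1 : ∑ l' ∈ (Finset.range (i + 2)).erase l, (-1 : ℝ) ^ l' * φ (ν l') (g i) ≤
        ∑ l' ∈ (Finset.range (i + 2)).erase l, (1 : ℝ) :=
      Finset.sum_le_sum fun l' hl' => hterm l' (Finset.mem_of_mem_erase hl')
        (Finset.ne_of_mem_erase hl')
    rw [Finset.sum_const, Finset.card_erase_of_mem hlmem, Finset.card_range, nsmul_eq_mul,
      mul_one, show i + 2 - 1 = i + 1 by omega] at h1
    push_cast at h1
    linarith only [hcon, h1]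
  have := hg3 i
  linarith only [hsum, this]

end Vale.Agent.P079
end
end

section

section

open Filter Topology Set

namespace Vale.Agent.P079

section Weak

variable {X : Type*} [NormedAddCommGroup X] [NormedSpace ℝ X]

/-- In a reflexive space a bounded family has a weak limit along every ultrafilter. -/
theorem exists_weak_limit (hX : Function.Surjective (NormedSpace.inclusionInDoubleDual ℝ X))
    {ι : Type*} (U : Ultrafilter ι) (x : ι → X) (M : ℝ) (hM : ∀ i, ‖x i‖ ≤ M) :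
    ∃ g : X, ∀ f : StrongDual ℝ X, Tendsto (fun i => f (x i)) U (𝓝 (f g)) := by
  have hlim : ∀ f : StrongDual ℝ X, ∃ a : ℝ, Tendsto (fun i => f (x i)) U (𝓝 a) := by
    intro f
    have hcomp : IsCompact (Metric.closedBall (0 : ℝ) (‖f‖ * M)) := isCompact_closedBall _ _
    have hmem : ∀ i, f (x i) ∈ Metric.closedBall (0 : ℝ) (‖f‖ * M) := by
      intro i
      rw [mem_closedBall_zero_iff]
      exact (f.le_opNorm _).trans (mul_le_mul_of_nonneg_left (hM i) (norm_nonneg _))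
    obtain ⟨a, _, ha⟩ := hcomp.ultrafilter_le_nhds (U.map (fun i => f (x i))) (by
      rw [le_principal_iff, Ultrafilter.coe_map, Filter.mem_map]
      exact Filter.Eventually.of_forall hmem)
    exact ⟨a, ha⟩
  choose Λ hΛ using hlim
  have hadd : ∀ f f' : StrongDual ℝ X, Λ (f + f') = Λ f + Λ f' := by
    intro f f'
    refine tendsto_nhds_unique (hΛ (f + f')) ?_
    simpa only [add_apply] using (hΛ f).add (hΛ f')
  have hsmul : ∀ (c : ℝ) (f : StrongDual ℝ X), Λ (c • f) = c * Λ f := by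
    intro c f
    refine tendsto_nhds_unique (hΛ (c • f)) ?_
    simpa only [smul_apply, smul_eq_mul] using (hΛ f).const_mul c
  have hbd : ∀ f : StrongDual ℝ X, ‖Λ f‖ ≤ M * ‖f‖ := by
    intro f
    refine le_of_tendsto (hΛ f).norm (Filter.Eventually.of_forall fun i => ?_)
    calc ‖f (x i)‖ ≤ ‖f‖ * ‖x i‖ := f.le_opNorm _
      _ ≤ ‖f‖ * M := mul_le_mul_of_nonneg_left (hM i) (norm_nonneg _)
      _ = M * ‖f‖ := mul_comm _ _
  let L : StrongDual ℝ X →ₗ[ℝ] ℝ :=
    { toFun := Λ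
      map_add' := hadd
      map_smul' := fun c f => by rw [hsmul, RingHom.id_apply, smul_eq_mul] }
  let L' : StrongDual ℝ (StrongDual ℝ X) := L.mkContinuous M hbd
  obtain ⟨g, hg⟩ := hX L'
  refine ⟨g, fun f => ?_⟩
  have h1 : f g = Λ f := by
    have h2 : (NormedSpace.inclusionInDoubleDual ℝ X g) f = L' f := by rw [hg]
    rw [NormedSpace.dual_def] at h2
    exact h2
  rw [h1]
  exact hΛ f

/-- Closed convex sets are stable under weak limits. -/
theorem weak_limit_mem {ι : Type*} {l : Filter ι} [l.NeBot] {x : ι → X} {g : X}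
    (hg : ∀ f : StrongDual ℝ X, Tendsto (fun i => f (x i)) l (𝓝 (f g)))
    {D : Set X} (hDc : Convex ℝ D) (hDcl : IsClosed D) (hD : ∀ᶠ i in l, x i ∈ D) : g ∈ D := by
  by_contra hcon
  obtain ⟨f, c, hf0, hfc⟩ := geometric_hahn_banach_point_closed hDc hDcl hcon
  have h1 : c ≤ f g := ge_of_tendsto (hg f) (hD.mono fun i hi => (hfc _ hi).le)
  linarith

/-- A chain of nonempty closed convex subsets of a bounded set has nonempty intersection. -/
theorem chain_inter_nonempty (hX : Function.Surjective (NormedSpace.inclusionInDoubleDual ℝ X))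
    {C : Set X} (hb : Bornology.IsBounded C) (S : Set (Set X)) (hS : IsChain (· ⊆ ·) S)
    (hne : S.Nonempty) (hSC : ∀ s ∈ S, s ⊆ C) (hSn : ∀ s ∈ S, s.Nonempty)
    (hScl : ∀ s ∈ S, IsClosed s) (hSco : ∀ s ∈ S, Convex ℝ s) : (⋂₀ S).Nonempty := by
  obtain ⟨M, hM⟩ := hb.exists_norm_le
  have hp : ∀ s : S, ∃ p : X, p ∈ s.1 := fun s => hSn s.1 s.2
  choose p hp using hp
  have : Nonempty S := hne.to_subtype
  have : IsCodirectedOrder S := by
    refine ⟨fun a b => ?_⟩
    rcases hS.total a.2 b.2 with h | h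
    · exact ⟨a, le_rfl, h⟩
    · exact ⟨b, h, le_rfl⟩
  let U : Ultrafilter S := Ultrafilter.of atBot
  obtain ⟨g, hg⟩ := exists_weak_limit hX U p M (fun s => hM _ (hSC s.1 s.2 (hp s)))
  refine ⟨g, ?_⟩
  rw [Set.mem_sInter]
  intro t ht
  refine weak_limit_mem hg (hSco t ht) (hScl t ht) ?_
  have h1 : ∀ᶠ s : S in atBot, s ≤ (⟨t, ht⟩ : S) := eventually_le_atBot _
  have h2 : ∀ᶠ s : S in (U : Filter S), s ≤ (⟨t, ht⟩ : S) := h1.filter_mono (Ultrafilter.of_le _)
  filter_upwards [h2] with s hs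
  exact hs (hp s)

/-- Weakly convergent subsequences in separable closed convex bounded sets. -/
theorem exists_weak_subseq (hX : Function.Surjective (NormedSpace.inclusionInDoubleDual ℝ X))
    {C : Set X} (hb : Bornology.IsBounded C) (hcl : IsClosed C) (hco : Convex ℝ C)
    (hsep : TopologicalSpace.IsSeparable C) (x : ℕ → X) (hx : ∀ n, x n ∈ C) :
    ∃ v ∈ C, ∃ ψ : ℕ → ℕ, StrictMono ψ ∧
      ∀ f : StrongDual ℝ X, Tendsto (fun n => f (x (ψ n))) atTop (𝓝 (f v)) := by
  obtain ⟨M, hM⟩ := hb.exists_norm_le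
  obtain ⟨v, hv⟩ := exists_weak_limit hX (hyperfilter ℕ) x M (fun n => hM _ (hx n))
  have hvC : v ∈ C := weak_limit_mem hv hco hcl (Filter.Eventually.of_forall hx)
  -- countable norming family
  have hspan : TopologicalSpace.IsSeparable (Submodule.span ℝ C : Set X) := hsep.span
  obtain ⟨D, hDc, hD⟩ := hspan
  have hDne : D.Nonempty := by
    rcases D.eq_empty_or_nonempty with h | h
    · exfalso
      rw [h, closure_empty] at hD
      exact hD (Submodule.zero_mem (Submodule.span ℝ C))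
    · exact h
  obtain ⟨c, hc⟩ := hDc.exists_eq_range hDne
  have hfc : ∀ l, ∃ f : StrongDual ℝ X, ‖f‖ ≤ 1 ∧ f (c l) = ‖c l‖ := by
    intro l
    obtain ⟨f, hf1, hf2⟩ := exists_dual_vector'' ℝ (c l)
    exact ⟨f, hf1, by simpa using hf2⟩
  choose F hF1 hF2 using hfc
  have hfreq : ∀ n, ∃ᶠ m in atTop, ∀ l ∈ Finset.range (n + 1), |F l (x m) - F l v| < 1 / ((n : ℝ) + 1) := by
    intro n
    have h1 : ∀ᶠ m in (hyperfilter ℕ : Filter ℕ), ∀ l ∈ Finset.range (n + 1),
        |F l (x m) - F l v| < 1 / ((n : ℝ) + 1) := by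
      rw [Filter.eventually_all_finset]
      intro l _
      have h2 := (hv (F l))
      have h3 := Metric.tendsto_nhds.1 h2 (1 / ((n : ℝ) + 1)) (by (clear * -; positivity))
      filter_upwards [h3] with m hm
      rwa [Real.dist_eq] at hm
    have h4 : ∃ᶠ m in (hyperfilter ℕ : Filter ℕ), ∀ l ∈ Finset.range (n + 1),
        |F l (x m) - F l v| < 1 / ((n : ℝ) + 1) := h1.frequently
    exact h4.filter_mono (Nat.hyperfilter_le_atTop)
  obtain ⟨ψ, hψ, hψP⟩ := Filter.extraction_forall_of_frequently hfreq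
  have hFψ : ∀ l, Tendsto (fun n => F l (x (ψ n))) atTop (𝓝 (F l v)) := by
    intro l
    rw [tendsto_iff_norm_sub_tendsto_zero]
    refine squeeze_zero' (Filter.Eventually.of_forall fun n => norm_nonneg _) ?_
      (tendsto_one_div_add_atTop_nhds_zero_nat (𝕜 := ℝ))
    filter_upwards [eventually_ge_atTop l] with n hn
    rw [Real.norm_eq_abs]
    exact (hψP n l (Finset.mem_range.2 (by omega))).le
  refine ⟨v, hvC, ψ, hψ, fun f => ?_⟩
  rw [tendsto_iff_ultrafilter]
  intro U hU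
  obtain ⟨g, hg⟩ := exists_weak_limit hX U (fun n => x (ψ n)) M (fun n => hM _ (hx _))
  have hgC : g ∈ C := weak_limit_mem hg hco hcl (Filter.Eventually.of_forall fun n => hx _)
  have hgv : g = v := by
    have hFg : ∀ l, F l g = F l v := fun l =>
      tendsto_nhds_unique (hg (F l)) ((hFψ l).mono_left hU)
    have hmem : g - v ∈ closure D := hD (Submodule.sub_mem _ (Submodule.subset_span hgC)
      (Submodule.subset_span hvC))
    rw [← sub_eq_zero, ← norm_le_zero_iff]
    refine le_of_forall_pos_le_add fun ε hε => ?_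
    obtain ⟨y, hyD, hy⟩ := Metric.mem_closure_iff.1 hmem (ε / 2) (by linarith)
    rw [hc] at hyD
    obtain ⟨l, rfl⟩ := hyD
    rw [dist_eq_norm] at hy
    have h1 : ‖c l‖ ≤ ε / 2 := by
      rw [← hF2 l]
      have h2 : F l (c l) = F l (c l - (g - v)) := by
        rw [map_sub, map_sub, hFg l, sub_self, sub_zero]
      rw [h2]
      calc F l (c l - (g - v)) ≤ ‖F l (c l - (g - v))‖ := le_abs_self _
        _ ≤ ‖F l‖ * ‖c l - (g - v)‖ := (F l).le_opNorm _
        _ ≤ 1 * (ε / 2) := by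
          refine mul_le_mul (hF1 l) ?_ (norm_nonneg _) zero_le_one
          rw [norm_sub_rev]
          exact hy.le
        _ = ε / 2 := one_mul _
    calc ‖g - v‖ = ‖(g - v - c l) + c l‖ := by rw [sub_add_cancel]
      _ ≤ ‖g - v - c l‖ + ‖c l‖ := norm_add_le _ _
      _ ≤ ε / 2 + ε / 2 := add_le_add hy.le h1
      _ = 0 + ε := by ring
  rw [← hgv]
  exact hg f

/-- A bounded sequence of functionals tending to zero on `C` tends to zero on the closed span. -/
theorem tendsto_zero_closure_span (C : Set X) (φ : ℕ → StrongDual ℝ X) (hφ1 : ∀ n, ‖φ n‖ ≤ 1)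
    (hφC : ∀ v ∈ C, Tendsto (fun n => φ n v) atTop (𝓝 0)) (y : X)
    (hy : y ∈ closure (Submodule.span ℝ C : Set X)) : Tendsto (fun n => φ n y) atTop (𝓝 0) := by
  have hspan : ∀ z ∈ Submodule.span ℝ C, Tendsto (fun n => φ n z) atTop (𝓝 0) := by
    intro z hz
    induction hz using Submodule.span_induction with
    | mem z hz => exact hφC z hz
    | zero => simp
    | add a b _ _ ha hb => simpa only [map_add, add_zero] using ha.add hb
    | smul r a _ ha => simpa only [map_smul, smul_eq_mul, mul_zero] using ha.const_mul r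
  rw [Metric.tendsto_atTop]
  intro ε hε
  obtain ⟨z, hz, hyz⟩ := Metric.mem_closure_iff.1 hy (ε / 2) (by linarith)
  obtain ⟨N, hN⟩ := Metric.tendsto_atTop.1 (hspan z hz) (ε / 2) (by linarith only [hε])
  refine ⟨N, fun n hn => ?_⟩
  have h1 := hN n hn
  rw [dist_zero_right] at h1 ⊢
  rw [dist_eq_norm] at hyz
  calc ‖φ n y‖ = ‖φ n (y - z) + φ n z‖ := by rw [map_sub, sub_add_cancel]
    _ ≤ ‖φ n (y - z)‖ + ‖φ n z‖ := norm_add_le _ _
    _ ≤ ‖φ n‖ * ‖y - z‖ + ‖φ n z‖ := add_le_add ((φ n).le_opNorm _) le_rfl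
    _ ≤ 1 * ‖y - z‖ + ‖φ n z‖ :=
        add_le_add (mul_le_mul_of_nonneg_right (hφ1 n) (norm_nonneg _)) le_rfl
    _ < ε := by linarith only [hyz, h1]

/-- The alternating chain is impossible in a reflexive space. -/
theorem chain_false (hX : Function.Surjective (NormedSpace.inclusionInDoubleDual ℝ X))
    (C : Set X) (φ : ℕ → StrongDual ℝ X) (hφ1 : ∀ n, ‖φ n‖ ≤ 1)
    (hφC : ∀ v ∈ C, Tendsto (fun n => φ n v) atTop (𝓝 0))
    (ν : ℕ → ℕ) (hν : StrictMono ν) (g : ℕ → X) (hg1 : ∀ i, ‖g i‖ ≤ 1)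
    (hg2 : ∀ i, g i ∈ Submodule.span ℝ C)
    (hg3 : ∀ i, ∀ l ≤ i, 1 / 2 < (-1 : ℝ) ^ l * φ (ν l) (g i)) : False := by
  obtain ⟨h, hh⟩ := exists_weak_limit hX (hyperfilter ℕ) g 1 hg1
  have hhC : h ∈ closure (Submodule.span ℝ C : Set X) := by
    refine weak_limit_mem hh (Submodule.convex _).closure isClosed_closure ?_
    exact Filter.Eventually.of_forall fun i => subset_closure (hg2 i)
  have h1 : ∀ l, (1 : ℝ) / 2 ≤ (-1 : ℝ) ^ l * φ (ν l) h := by
    intro l
    refine ge_of_tendsto ((hh (φ (ν l))).const_mul ((-1 : ℝ) ^ l)) ?_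
    have h2 : ∀ᶠ i in (hyperfilter ℕ : Filter ℕ), l ≤ i :=
      (eventually_ge_atTop l).filter_mono Nat.hyperfilter_le_atTop
    filter_upwards [h2] with i hi
    exact (hg3 i l hi).le
  have h3 : Tendsto (fun l => φ (ν l) h) atTop (𝓝 0) :=
    (tendsto_zero_closure_span C φ hφ1 hφC h hhC).comp hν.tendsto_atTop
  obtain ⟨N, hN⟩ := Metric.tendsto_atTop.1 h3 (1 / 2) (by norm_num)
  have h4 := hN N le_rfl
  rw [dist_zero_right] at h4
  have h5 : (-1 : ℝ) ^ N * φ (ν N) h ≤ ‖φ (ν N) h‖ := by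
    calc (-1 : ℝ) ^ N * φ (ν N) h ≤ ‖(-1 : ℝ) ^ N * φ (ν N) h‖ := le_abs_self _
      _ = ‖φ (ν N) h‖ := by rw [norm_mul, norm_pow, norm_neg, norm_one, one_pow, one_mul]
  have h6 := h1 N
  linarith

end Weak

end Vale.Agent.P079
end
end

section

section

open Filter Topology Set

namespace Vale.Agent.P079

section Minimal

variable {X : Type*} [NormedAddCommGroup X] [NormedSpace ℝ X]

omit [NormedSpace ℝ X] in
theorem continuousOn_of_ne {C : Set X} {T : X → X}
    (hT : ∀ x ∈ C, ∀ y ∈ C, ‖T x - T y‖ ≤ ‖x - y‖) : ContinuousOn T C := by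
  rw [Metric.continuousOn_iff]
  intro b hb ε hε
  refine ⟨ε, hε, fun a ha hab => ?_⟩
  rw [dist_eq_norm] at hab ⊢
  exact lt_of_le_of_lt (hT a ha b hb) hab

/-- The increasing sequence of convex sets generated from a point. -/
noncomputable def tower (T : X → X) (z : X) : ℕ → Set X
  | 0 => {z}
  | n + 1 => convexHull ℝ (tower T z n ∪ T '' tower T z n)

theorem tower_succ (T : X → X) (z : X) (n : ℕ) :
    tower T z (n + 1) = convexHull ℝ (tower T z n ∪ T '' tower T z n) := rfl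

theorem exists_separable_invariant {C : Set X} (hcl : IsClosed C) (hco : Convex ℝ C)
    (hne : C.Nonempty) {T : X → X} (hTm : MapsTo T C C)
    (hT : ∀ x ∈ C, ∀ y ∈ C, ‖T x - T y‖ ≤ ‖x - y‖) :
    ∃ D ⊆ C, D.Nonempty ∧ IsClosed D ∧ Convex ℝ D ∧ MapsTo T D D ∧
      TopologicalSpace.IsSeparable D := by
  obtain ⟨z, hz⟩ := hne
  have hTc := continuousOn_of_ne hT
  have hsub : ∀ n, tower T z n ⊆ C := by
    intro n
    induction n with
    | zero => intro x hx; rw [tower, mem_singleton_iff] at hx; rw [hx]; exact hz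
    | succ n ih =>
      rw [tower_succ]
      refine convexHull_min (Set.union_subset ih ?_) hco
      rintro _ ⟨y, hy, rfl⟩
      exact hTm (ih hy)
  have hconv : ∀ n, Convex ℝ (tower T z n) := by
    intro n
    cases n with
    | zero => exact convex_singleton z
    | succ n => rw [tower_succ]; exact convex_convexHull ℝ _
  have hsep : ∀ n, TopologicalSpace.IsSeparable (tower T z n) := by
    intro n
    induction n with
    | zero => exact (Set.countable_singleton z).isSeparable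
    | succ n ih =>
      rw [tower_succ]
      have h1 : TopologicalSpace.IsSeparable (tower T z n ∪ T '' tower T z n) :=
        ih.union ((hTc.mono (hsub n)).isSeparable_image ih)
      exact h1.span.mono (convexHull_min Submodule.subset_span (Submodule.convex _))
  have hmono1 : ∀ n, tower T z n ⊆ tower T z (n + 1) := by
    intro n
    rw [tower_succ]
    exact Set.subset_union_left.trans (subset_convexHull ℝ _)
  have hmono : Monotone (tower T z) := monotone_nat_of_le_succ hmono1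
  have hTmaps : ∀ n, MapsTo T (tower T z n) (tower T z (n + 1)) := by
    intro n x hx
    rw [tower_succ]
    exact subset_convexHull ℝ _ (Or.inr ⟨x, hx, rfl⟩)
  have hUC : (⋃ n, tower T z n) ⊆ C := Set.iUnion_subset hsub
  have hcC : closure (⋃ n, tower T z n) ⊆ C := closure_minimal hUC hcl
  refine ⟨closure (⋃ n, tower T z n), hcC, ?_, isClosed_closure, ?_, ?_, ?_⟩
  · exact ⟨z, subset_closure (Set.mem_iUnion.2 ⟨0, by rw [tower]; exact mem_singleton z⟩)⟩
  · refine Convex.closure ?_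
    exact Directed.convex_iUnion (hmono.directed_le) hconv
  · refine MapsTo.closure_of_continuousOn ?_ (hTc.mono hcC)
    intro x hx
    obtain ⟨n, hn⟩ := Set.mem_iUnion.1 hx
    exact Set.mem_iUnion.2 ⟨n + 1, hTmaps n hn⟩
  · exact (TopologicalSpace.IsSeparable.iUnion hsep).closure

/-- Minimal invariant sets: `K` is nonempty closed convex invariant, and has no proper subset with
these properties. -/
structure MinInv (T : X → X) (K : Set X) : Prop where
  ne : K.Nonempty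
  cl : IsClosed K
  co : Convex ℝ K
  maps : MapsTo T K K
  min : ∀ D ⊆ K, D.Nonempty → IsClosed D → Convex ℝ D → MapsTo T D D → D = K

theorem exists_minInv (hX : Function.Surjective (NormedSpace.inclusionInDoubleDual ℝ X))
    {C : Set X} (hb : Bornology.IsBounded C) (hcl : IsClosed C) (hco : Convex ℝ C)
    (hne : C.Nonempty) {T : X → X} (hTm : MapsTo T C C) :
    ∃ K ⊆ C, MinInv T K := by
  let S : Set (Set X) := {D | D ⊆ C ∧ D.Nonempty ∧ IsClosed D ∧ Convex ℝ D ∧ MapsTo T D D}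
  obtain ⟨K, hKC, hK⟩ := zorn_superset_nonempty S (by
    intro c hcS hc hcne
    refine ⟨⋂₀ c, ⟨?_, ?_, ?_, ?_, ?_⟩, fun s hs => Set.sInter_subset_of_mem hs⟩
    · obtain ⟨s, hs⟩ := hcne
      exact (Set.sInter_subset_of_mem hs).trans (hcS hs).1
    · exact chain_inter_nonempty hX hb c hc hcne (fun s hs => (hcS hs).1)
        (fun s hs => (hcS hs).2.1) (fun s hs => (hcS hs).2.2.1) (fun s hs => (hcS hs).2.2.2.1)
    · exact isClosed_sInter fun s hs => (hcS hs).2.2.1
    · exact convex_sInter fun s hs => (hcS hs).2.2.2.1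
    · intro x hx
      rw [Set.mem_sInter] at hx ⊢
      intro s hs
      exact (hcS hs).2.2.2.2 (hx s hs)) C ⟨Subset.rfl, hne, hcl, hco, hTm⟩
  refine ⟨K, hKC, ⟨hK.prop.2.1, hK.prop.2.2.1, hK.prop.2.2.2.1, hK.prop.2.2.2.2, ?_⟩⟩
  intro D hDK hDne hDcl hDco hDT
  refine Subset.antisymm hDK ?_
  exact hK.le_of_le ⟨hDK.trans hKC, hDne, hDcl, hDco, hDT⟩ hDK

/-- Approximate fixed points in closed bounded convex sets of a complete space. -/
theorem exists_approx_fixed [CompleteSpace X] {K : Set X} (hne : K.Nonempty)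
    (hb : Bornology.IsBounded K) (hcl : IsClosed K) (hco : Convex ℝ K) {T : X → X}
    (hTm : MapsTo T K K) (hT : ∀ x ∈ K, ∀ y ∈ K, ‖T x - T y‖ ≤ ‖x - y‖) {ε : ℝ} (hε : 0 < ε) :
    ∃ x ∈ K, ‖T x - x‖ ≤ ε := by
  obtain ⟨z, hz⟩ := hne
  obtain ⟨M, hM0, hM⟩ : ∃ M : ℝ, 0 < M ∧ ∀ x ∈ K, ‖x‖ ≤ M := by
    obtain ⟨M, hM⟩ := hb.exists_norm_le
    exact ⟨max M 1, lt_of_lt_of_le one_pos (le_max_right _ _), fun x hx => (hM x hx).trans (le_max_left _ _)⟩
  set t : ℝ := min (1 / 2) (ε / (2 * M)) with ht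
  have ht0 : 0 < t := lt_min (by norm_num) (by (clear * - hε hM0; positivity))
  have ht1 : t ≤ 1 / 2 := min_le_left _ _
  have htM : t * (2 * M) ≤ ε := by
    have h1 : t ≤ ε / (2 * M) := min_le_right _ _
    rwa [le_div_iff₀ (by positivity)] at h1
  set S : X → X := fun x => t • z + (1 - t) • T x with hS
  have hSm : MapsTo S K K := fun x hx =>
    hco hz (hTm hx) ht0.le (by linarith only [ht1]) (by ring)
  have hq : ((Real.toNNReal (1 - t) : NNReal) : ℝ) = 1 - t := Real.coe_toNNReal _ (by linarith only [ht1])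
  have hcontr : ContractingWith (Real.toNNReal (1 - t)) (hSm.restrict S K K) := by
    refine ⟨?_, LipschitzWith.of_dist_le_mul fun x y => ?_⟩
    · rw [← NNReal.coe_lt_coe, hq, NNReal.coe_one]
      linarith only [ht0]
    · rw [Subtype.dist_eq, Subtype.dist_eq, dist_eq_norm, dist_eq_norm, hq]
      change ‖(t • z + (1 - t) • T x.1) - (t • z + (1 - t) • T y.1)‖ ≤ (1 - t) * ‖x.1 - y.1‖
      have h1 : (t • z + (1 - t) • T x.1) - (t • z + (1 - t) • T y.1) =
          (1 - t) • (T x.1 - T y.1) := by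
        rw [smul_sub]; abel
      rw [h1, norm_smul, Real.norm_of_nonneg (by linarith only [ht1])]
      exact mul_le_mul_of_nonneg_left (hT _ x.2 _ y.2) (by linarith only [ht1])
  obtain ⟨x, hxK, hx, -⟩ := ContractingWith.exists_fixedPoint' hcl.isComplete hSm hcontr hz
    (edist_ne_top _ _)
  refine ⟨x, hxK, ?_⟩
  have hx' : t • z + (1 - t) • T x = x := hx
  have h1 : T x - x = t • (T x - z) := by
    calc T x - x = T x - (t • z + (1 - t) • T x) := by rw [hx']
      _ = t • (T x - z) := by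
        rw [sub_smul, one_smul, smul_sub]; abel
  rw [h1, norm_smul, Real.norm_of_nonneg ht0.le]
  calc t * ‖T x - z‖ ≤ t * (2 * M) := by
        refine mul_le_mul_of_nonneg_left ?_ ht0.le
        calc ‖T x - z‖ ≤ ‖T x‖ + ‖z‖ := norm_sub_le _ _
          _ ≤ M + M := add_le_add (hM _ (hTm hxK)) (hM _ hz)
          _ = 2 * M := by ring
    _ ≤ ε := htM

end Minimal

end Vale.Agent.P079
end
end

section

section

open Filter Topology Set

namespace Vale.Agent.P079

section Karlovitz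

variable {X : Type*} [NormedAddCommGroup X] [NormedSpace ℝ X]

/-- Goebel-Karlovitz: in a minimal set the distances from an approximate fixed point sequence to
any point tend to the diameter. -/
theorem goebel_karlovitz (hX : Function.Surjective (NormedSpace.inclusionInDoubleDual ℝ X))
    {K : Set X} {T : X → X} (hK : MinInv T K) (hb : Bornology.IsBounded K)
    (hT : ∀ x ∈ K, ∀ y ∈ K, ‖T x - T y‖ ≤ ‖x - y‖) (x : ℕ → X) (hx : ∀ n, x n ∈ K)
    (hxT : Tendsto (fun n => ‖T (x n) - x n‖) atTop (𝓝 0)) {v : X} (hv : v ∈ K) :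
    Tendsto (fun n => ‖x n - v‖) atTop (𝓝 (Metric.diam K)) := by
  obtain ⟨M, hM⟩ := hb.exists_norm_le
  have hle : ∀ a ∈ K, ∀ b ∈ K, ‖a - b‖ ≤ Metric.diam K := by
    intro a ha b hb'
    rw [← dist_eq_norm]
    exact Metric.dist_le_diam_of_mem hb ha hb'
  rw [tendsto_iff_ultrafilter]
  intro U hU
  -- the limits exist
  have hlim : ∀ z ∈ K, ∃ a : ℝ, Tendsto (fun n => ‖x n - z‖) U (𝓝 a) := by
    intro z hz
    have hcomp : IsCompact (Set.Icc (0 : ℝ) (Metric.diam K)) := isCompact_Icc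
    obtain ⟨a, _, ha⟩ := hcomp.ultrafilter_le_nhds (U.map (fun n => ‖x n - z‖)) (by
      rw [le_principal_iff, Ultrafilter.coe_map, Filter.mem_map]
      exact Filter.Eventually.of_forall fun n => ⟨norm_nonneg _, hle _ (hx n) _ hz⟩)
    exact ⟨a, ha⟩
  obtain ⟨r, hr⟩ := hlim v hv
  -- all limits are at most `r`
  have hTU : Tendsto (fun n => ‖T (x n) - x n‖) U (𝓝 0) := hxT.mono_left hU
  have hD : {z | z ∈ K ∧ ∀ ε > 0, ∀ᶠ n in (U : Filter ℕ), ‖x n - z‖ ≤ r + ε} = K := by
    refine hK.min _ (fun z hz => hz.1) ⟨v, hv, ?_⟩ ?_ ?_ ?_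
    · intro ε hε
      filter_upwards [hr.eventually (gt_mem_nhds (show r < r + ε by linarith only [hε]))] with n hn
      exact hn.le
    · rw [← isSeqClosed_iff_isClosed]
      intro y p hy hyp
      refine ⟨hK.cl.mem_of_tendsto hyp (Filter.Eventually.of_forall fun n => (hy n).1), ?_⟩
      intro ε hε
      obtain ⟨N, hN⟩ := Metric.tendsto_atTop.1 hyp (ε / 2) (by linarith only [hε])
      have h1 := hN N le_rfl
      rw [dist_eq_norm] at h1
      filter_upwards [(hy N).2 (ε / 2) (by linarith only [hε])] with n hn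
      calc ‖x n - p‖ = ‖(x n - y N) + (y N - p)‖ := by rw [sub_add_sub_cancel]
        _ ≤ ‖x n - y N‖ + ‖y N - p‖ := norm_add_le _ _
        _ ≤ (r + ε / 2) + ε / 2 := add_le_add hn h1.le
        _ = r + ε := by ring
    · intro y hy z hz a b ha hb' hab
      refine ⟨hK.co hy.1 hz.1 ha hb' hab, fun ε hε => ?_⟩
      filter_upwards [hy.2 ε hε, hz.2 ε hε] with n hn hn'
      have h1 : x n - (a • y + b • z) = a • (x n - y) + b • (x n - z) := by
        have h2 : x n = a • x n + b • x n := by rw [← add_smul, hab, one_smul]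
        calc x n - (a • y + b • z) = (a • x n + b • x n) - (a • y + b • z) := by rw [← h2]
          _ = a • (x n - y) + b • (x n - z) := by rw [smul_sub, smul_sub]; abel
      rw [h1]
      calc ‖a • (x n - y) + b • (x n - z)‖ ≤ ‖a • (x n - y)‖ + ‖b • (x n - z)‖ := norm_add_le _ _
        _ = a * ‖x n - y‖ + b * ‖x n - z‖ := by
          rw [norm_smul, norm_smul, Real.norm_of_nonneg ha, Real.norm_of_nonneg hb']
        _ ≤ a * (r + ε) + b * (r + ε) :=
          add_le_add (mul_le_mul_of_nonneg_left hn ha) (mul_le_mul_of_nonneg_left hn' hb')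
        _ = r + ε := by rw [← add_mul, hab, one_mul]
    · intro z hz
      refine ⟨hK.maps hz.1, fun ε hε => ?_⟩
      filter_upwards [hz.2 (ε / 2) (by linarith),
        hTU.eventually (gt_mem_nhds (show (0 : ℝ) < ε / 2 by linarith only [hε]))] with n hn hn'
      calc ‖x n - T z‖ = ‖(T (x n) - T z) - (T (x n) - x n)‖ := by congr 1; abel
        _ ≤ ‖T (x n) - T z‖ + ‖T (x n) - x n‖ := norm_sub_le _ _
        _ ≤ (r + ε / 2) + ε / 2 := add_le_add ((hT _ (hx n) _ hz.1).trans hn) hn'.le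
        _ = r + ε := by ring
  have hall : ∀ z ∈ K, ∀ ε > 0, ∀ᶠ n in (U : Filter ℕ), ‖x n - z‖ ≤ r + ε := by
    intro z hz
    rw [← hD] at hz
    exact hz.2
  -- the weak limit is a point with small radius
  obtain ⟨g, hg⟩ := exists_weak_limit hX U x M (fun n => hM _ (hx n))
  have hgK : g ∈ K := weak_limit_mem hg hK.co hK.cl (Filter.Eventually.of_forall hx)
  have hgr : ∀ z ∈ K, ‖g - z‖ ≤ r := by
    intro z hz
    refine le_of_forall_pos_le_add fun ε hε => ?_
    have h2 : g ∈ Metric.closedBall z (r + ε) := by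
      refine weak_limit_mem hg (convex_closedBall z (r + ε)) Metric.isClosed_closedBall ?_
      filter_upwards [hall z hz ε hε] with n hn
      rw [mem_closedBall_iff_norm]
      exact hn
    rwa [mem_closedBall_iff_norm] at h2
  have hW : {w | w ∈ K ∧ ∀ z ∈ K, ‖w - z‖ ≤ r} = K := by
    refine hK.min _ (fun z hz => hz.1) ⟨g, hgK, hgr⟩ ?_ ?_ ?_
    · have h1 : {w | w ∈ K ∧ ∀ z ∈ K, ‖w - z‖ ≤ r} = K ∩ ⋂ z ∈ K, Metric.closedBall z r := by
        ext w
        simp only [Set.mem_ofPred_eq, Set.mem_inter_iff, Set.mem_iInter, mem_closedBall_iff_norm]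
      rw [h1]
      exact hK.cl.inter (isClosed_biInter fun z _ => Metric.isClosed_closedBall)
    · have h1 : {w | w ∈ K ∧ ∀ z ∈ K, ‖w - z‖ ≤ r} = K ∩ ⋂ z ∈ K, Metric.closedBall z r := by
        ext w
        simp only [Set.mem_ofPred_eq, Set.mem_inter_iff, Set.mem_iInter, mem_closedBall_iff_norm]
      rw [h1]
      exact hK.co.inter (convex_iInter fun z => convex_iInter fun _ => convex_closedBall z r)
    · intro w hw
      refine ⟨hK.maps hw.1, ?_⟩
      have hE : K ∩ Metric.closedBall (T w) r = K := by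
        refine hK.min _ Set.inter_subset_left ?_ (hK.cl.inter Metric.isClosed_closedBall)
          (hK.co.inter (convex_closedBall _ _)) ?_
        · obtain ⟨z, hz⟩ := hK.ne
          refine ⟨T z, hK.maps hz, ?_⟩
          rw [mem_closedBall_iff_norm, norm_sub_rev]
          exact (hT _ hw.1 _ hz).trans (hw.2 z hz)
        · intro z hz
          refine ⟨hK.maps hz.1, ?_⟩
          rw [mem_closedBall_iff_norm, norm_sub_rev]
          exact (hT _ hw.1 _ hz.1).trans (hw.2 z hz.1)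
      intro z hz
      rw [← hE] at hz
      have h1 := hz.2
      rwa [mem_closedBall_iff_norm, norm_sub_rev] at h1
  have hrd : r = Metric.diam K := by
    refine le_antisymm ?_ ?_
    · exact le_of_tendsto hr (Filter.Eventually.of_forall fun n => hle _ (hx n) _ hv)
    · refine Metric.diam_le_of_forall_dist_le ?_ ?_
      · exact ge_of_tendsto hr (Filter.Eventually.of_forall fun n => norm_nonneg _)
      · intro a ha b hb'
        rw [← hW] at ha
        rw [dist_eq_norm]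
        exact ha.2 b hb'
  rw [← hrd]
  exact hr

/-- The maps generated from the identity by composing with `T` on the left and by convex
combinations. -/
inductive Gen (T : X → X) : (X → X) → Prop
  | base : Gen T (fun x => x)
  | step (R : X → X) (hR : Gen T R) : Gen T (fun x => T (R x))
  | conv (R R' : X → X) (a b : ℝ) (hR : Gen T R) (hR' : Gen T R') (ha : 0 ≤ a) (hb : 0 ≤ b)
      (hab : a + b = 1) : Gen T (fun x => a • R x + b • R' x)

theorem Gen.mapsTo {T : X → X} {K : Set X} (hco : Convex ℝ K) (hTm : MapsTo T K K) {R : X → X}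
    (hR : Gen T R) : MapsTo R K K := by
  induction hR with
  | base => exact fun x hx => hx
  | step R _ ih => exact fun x hx => hTm (ih hx)
  | conv R R' a b _ _ ha hb hab ih ih' => exact fun x hx => hco (ih hx) (ih' hx) ha hb hab

theorem Gen.ne {T : X → X} {K : Set X} (hco : Convex ℝ K) (hTm : MapsTo T K K)
    (hT : ∀ x ∈ K, ∀ y ∈ K, ‖T x - T y‖ ≤ ‖x - y‖) {R : X → X}
    (hR : Gen T R) : ∀ x ∈ K, ∀ y ∈ K, ‖R x - R y‖ ≤ ‖x - y‖ := by
  induction hR with
  | base => exact fun x _ y _ => le_rfl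
  | step R hR ih =>
    intro x hx y hy
    exact (hT _ (hR.mapsTo hco hTm hx) _ (hR.mapsTo hco hTm hy)).trans (ih x hx y hy)
  | conv R R' a b _ _ ha hb hab ih ih' =>
    intro x hx y hy
    have h1 : (a • R x + b • R' x) - (a • R y + b • R' y) = a • (R x - R y) + b • (R' x - R' y) := by
      rw [smul_sub, smul_sub]; abel
    change ‖(a • R x + b • R' x) - (a • R y + b • R' y)‖ ≤ ‖x - y‖
    rw [h1]
    calc ‖a • (R x - R y) + b • (R' x - R' y)‖ ≤ ‖a • (R x - R y)‖ + ‖b • (R' x - R' y)‖ :=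
          norm_add_le _ _
      _ = a * ‖R x - R y‖ + b * ‖R' x - R' y‖ := by
        rw [norm_smul, norm_smul, Real.norm_of_nonneg ha, Real.norm_of_nonneg hb]
      _ ≤ a * ‖x - y‖ + b * ‖x - y‖ :=
        add_le_add (mul_le_mul_of_nonneg_left (ih x hx y hy) ha)
          (mul_le_mul_of_nonneg_left (ih' x hx y hy) hb)
      _ = ‖x - y‖ := by rw [← add_mul, hab, one_mul]

theorem Gen.afps {T : X → X} {K : Set X} (hco : Convex ℝ K) (hTm : MapsTo T K K)
    (hT : ∀ x ∈ K, ∀ y ∈ K, ‖T x - T y‖ ≤ ‖x - y‖) {R : X → X}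
    (hR : Gen T R) (x : ℕ → X) (hx : ∀ n, x n ∈ K)
    (hxT : Tendsto (fun n => ‖T (x n) - x n‖) atTop (𝓝 0)) :
    Tendsto (fun n => ‖R (x n) - x n‖) atTop (𝓝 0) := by
  induction hR with
  | base => simp only [sub_self, norm_zero, tendsto_const_nhds_iff]
  | step R hR ih =>
    have h1 : Tendsto (fun n => ‖R (x n) - x n‖ + ‖T (x n) - x n‖) atTop (𝓝 0) := by
      simpa only [add_zero] using ih.add hxT
    refine squeeze_zero (fun n => norm_nonneg _) (fun n => ?_) h1
    calc ‖T (R (x n)) - x n‖ = ‖(T (R (x n)) - T (x n)) + (T (x n) - x n)‖ := by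
          rw [sub_add_sub_cancel]
      _ ≤ ‖T (R (x n)) - T (x n)‖ + ‖T (x n) - x n‖ := norm_add_le _ _
      _ ≤ ‖R (x n) - x n‖ + ‖T (x n) - x n‖ :=
        add_le_add (hT _ (hR.mapsTo hco hTm (hx n)) _ (hx n)) le_rfl
  | conv R R' a b _ _ ha hb hab ih ih' =>
    have h1 : Tendsto (fun n => a * ‖R (x n) - x n‖ + b * ‖R' (x n) - x n‖) atTop (𝓝 0) := by
      simpa only [mul_zero, add_zero] using (ih.const_mul a).add (ih'.const_mul b)
    refine squeeze_zero (fun n => norm_nonneg _) (fun n => ?_) h1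
    have h2 : (a • R (x n) + b • R' (x n)) - x n = a • (R (x n) - x n) + b • (R' (x n) - x n) := by
      have h3 : x n = a • x n + b • x n := by rw [← add_smul, hab, one_smul]
      calc (a • R (x n) + b • R' (x n)) - x n
          = (a • R (x n) + b • R' (x n)) - (a • x n + b • x n) := by rw [← h3]
        _ = a • (R (x n) - x n) + b • (R' (x n) - x n) := by rw [smul_sub, smul_sub]; abel
    rw [h2]
    calc ‖a • (R (x n) - x n) + b • (R' (x n) - x n)‖
        ≤ ‖a • (R (x n) - x n)‖ + ‖b • (R' (x n) - x n)‖ := norm_add_le _ _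
      _ = a * ‖R (x n) - x n‖ + b * ‖R' (x n) - x n‖ := by
        rw [norm_smul, norm_smul, Real.norm_of_nonneg ha, Real.norm_of_nonneg hb]

/-- In a minimal set every orbit under the generated maps is dense. -/
theorem MinInv.dense {T : X → X} {K : Set X} (hK : MinInv T K)
    (hT : ∀ x ∈ K, ∀ y ∈ K, ‖T x - T y‖ ≤ ‖x - y‖) {v : X} (hv : v ∈ K) {w : X} (hw : w ∈ K)
    {ε : ℝ} (hε : 0 < ε) : ∃ R : X → X, Gen T R ∧ ‖R v - w‖ ≤ ε := by
  have hsub : {y | ∃ R : X → X, Gen T R ∧ y = R v} ⊆ K := by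
    rintro _ ⟨R, hR, rfl⟩
    exact hR.mapsTo hK.co hK.maps hv
  have hcsub : closure {y | ∃ R : X → X, Gen T R ∧ y = R v} ⊆ K := closure_minimal hsub hK.cl
  have hD : closure {y | ∃ R : X → X, Gen T R ∧ y = R v} = K := by
    refine hK.min _ hcsub ⟨v, subset_closure ⟨_, Gen.base, rfl⟩⟩ isClosed_closure ?_ ?_
    · refine Convex.closure ?_
      rintro _ ⟨R, hR, rfl⟩ _ ⟨R', hR', rfl⟩ a b ha hb hab
      exact ⟨_, Gen.conv R R' a b hR hR' ha hb hab, rfl⟩
    · refine MapsTo.closure_of_continuousOn ?_ ((continuousOn_of_ne hT).mono hcsub)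
      rintro _ ⟨R, hR, rfl⟩
      exact ⟨_, Gen.step R hR, rfl⟩
  rw [← hD] at hw
  obtain ⟨_, ⟨R, hR, rfl⟩, hy⟩ := Metric.mem_closure_iff.1 hw ε hε
  refine ⟨R, hR, ?_⟩
  rw [← dist_eq_norm, dist_comm]
  exact hy.le

end Karlovitz

end Vale.Agent.P079
end
end

section

section

open Filter Topology Set

namespace Vale.Agent.P079

section Main

variable {X : Type*} [NormedAddCommGroup X] [NormedSpace ℝ X]

/-- Norming functionals: after passing to a subsequence, `φ k (u (ψ k) - v)` tends to `d` for every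
`v` in the separable convex set `K`. -/
theorem exists_functionals {K : Set X} (hco : Convex ℝ K) (hne : K.Nonempty)
    (hsep : TopologicalSpace.IsSeparable K) (d : ℝ) (u : ℕ → X)
    (hud : ∀ n, ∀ v ∈ K, ‖u n - v‖ ≤ d)
    (hu : ∀ v ∈ K, Tendsto (fun n => ‖u n - v‖) atTop (𝓝 d)) :
    ∃ ψ : ℕ → ℕ, StrictMono ψ ∧ ∃ φ : ℕ → StrongDual ℝ X, (∀ k, ‖φ k‖ ≤ 1) ∧
      ∀ v ∈ K, Tendsto (fun k => φ k (u (ψ k) - v)) atTop (𝓝 d) := by
  obtain ⟨D, hDK, hDc, hD⟩ := hsep.exists_countable_dense_subset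
  have hDne : D.Nonempty := by
    rcases D.eq_empty_or_nonempty with h | h
    · exfalso
      rw [h, closure_empty] at hD
      obtain ⟨z, hz⟩ := hne
      exact hD hz
    · exact h
  obtain ⟨e, he⟩ := hDc.exists_eq_range hDne
  have heK : ∀ j, e j ∈ K := fun j => hDK (he ▸ Set.mem_range_self j)
  -- averages
  set c : ℕ → X := fun k => ∑ i ∈ Finset.range (k + 1), ((1 : ℝ) / ((k : ℝ) + 1)) • e i with hc
  have hcK : ∀ k, c k ∈ K := by
    intro k
    refine hco.sum_mem (fun i _ => by (clear * -; positivity)) ?_ (fun i _ => heK i)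
    rw [Finset.sum_const, Finset.card_range, nsmul_eq_mul]
    push_cast
    (clear * -; field_simp)
  have hev : ∀ k : ℕ, ∀ᶠ n in atTop, d - ‖u n - c k‖ ≤ (1 / ((k : ℝ) + 1)) ^ 2 := by
    intro k
    have h1 : (0 : ℝ) < (1 / ((k : ℝ) + 1)) ^ 2 := by (clear * -; positivity)
    have h2 := (hu (c k) (hcK k)).eventually
      (lt_mem_nhds (show d - (1 / ((k : ℝ) + 1)) ^ 2 < d by linarith only [h1]))
    filter_upwards [h2] with n hn
    linarith only [hn]
  obtain ⟨ψ, hψ, hψP⟩ := Filter.extraction_forall_of_eventually hev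
  have hnorm : ∀ k, ∃ f : StrongDual ℝ X, ‖f‖ ≤ 1 ∧ f (u (ψ k) - c k) = ‖u (ψ k) - c k‖ := by
    intro k
    obtain ⟨f, hf1, hf2⟩ := exists_dual_vector'' ℝ (u (ψ k) - c k)
    exact ⟨f, hf1, by simpa using hf2⟩
  choose φ hφ1 hφ2 using hnorm
  have hup : ∀ k, ∀ v ∈ K, φ k (u (ψ k) - v) ≤ d := by
    intro k v hv
    calc φ k (u (ψ k) - v) ≤ ‖φ k (u (ψ k) - v)‖ := le_abs_self _
      _ ≤ ‖φ k‖ * ‖u (ψ k) - v‖ := (φ k).le_opNorm _
      _ ≤ 1 * ‖u (ψ k) - v‖ := mul_le_mul_of_nonneg_right (hφ1 k) (norm_nonneg _)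
      _ = ‖u (ψ k) - v‖ := one_mul _
      _ ≤ d := hud _ _ hv
  have hlow : ∀ k : ℕ, ∀ j ≤ k, d - 1 / ((k : ℝ) + 1) ≤ φ k (u (ψ k) - e j) := by
    intro k j hj
    have hkpos : (0 : ℝ) < (k : ℝ) + 1 := by (clear * -; positivity)
    have h1 : φ k (u (ψ k) - c k) =
        ∑ i ∈ Finset.range (k + 1), (1 / ((k : ℝ) + 1)) * φ k (u (ψ k) - e i) := by
      have h2 : u (ψ k) = ∑ i ∈ Finset.range (k + 1), ((1 : ℝ) / ((k : ℝ) + 1)) • u (ψ k) := by
        rw [Finset.sum_const, Finset.card_range, ← Nat.cast_smul_eq_nsmul ℝ, smul_smul]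
        push_cast
        rw [mul_one_div_cancel hkpos.ne', one_smul]
      calc φ k (u (ψ k) - c k)
          = φ k ((∑ i ∈ Finset.range (k + 1), ((1 : ℝ) / ((k : ℝ) + 1)) • u (ψ k)) - c k) := by
            rw [← h2]
        _ = ∑ i ∈ Finset.range (k + 1), (1 / ((k : ℝ) + 1)) * φ k (u (ψ k) - e i) := by
          rw [hc, ← Finset.sum_sub_distrib, map_sum]
          refine Finset.sum_congr rfl fun i _ => ?_
          rw [← smul_sub, map_smul, smul_eq_mul]
    have h3 : d - (1 / ((k : ℝ) + 1)) ^ 2 ≤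
        ∑ i ∈ Finset.range (k + 1), (1 / ((k : ℝ) + 1)) * φ k (u (ψ k) - e i) := by
      rw [← h1, hφ2 k]
      have := hψP k
      linarith only [this]
    have h4 : ∑ i ∈ Finset.range (k + 1), (1 / ((k : ℝ) + 1)) * φ k (u (ψ k) - e i) ≤
        (1 / ((k : ℝ) + 1)) * φ k (u (ψ k) - e j) + ((k : ℝ) * ((1 / ((k : ℝ) + 1)) * d)) := by
      have hjm : j ∈ Finset.range (k + 1) := Finset.mem_range.2 (by omega)
      rw [← Finset.add_sum_erase _ _ hjm]
      refine add_le_add le_rfl ?_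
      have h5 : ∑ i ∈ (Finset.range (k + 1)).erase j, (1 / ((k : ℝ) + 1)) * φ k (u (ψ k) - e i) ≤
          ∑ i ∈ (Finset.range (k + 1)).erase j, (1 / ((k : ℝ) + 1)) * d :=
        Finset.sum_le_sum fun i _ => mul_le_mul_of_nonneg_left (hup k _ (heK i)) (by (clear * -; positivity))
      rw [Finset.sum_const, Finset.card_erase_of_mem hjm,
        Finset.card_range, nsmul_eq_mul, Nat.add_sub_cancel] at h5
      exact h5
    have h6 : d - (1 / ((k : ℝ) + 1)) ^ 2 ≤
        (1 / ((k : ℝ) + 1)) * φ k (u (ψ k) - e j) + ((k : ℝ) * ((1 / ((k : ℝ) + 1)) * d)) :=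
      h3.trans h4
    have h7 : (1 / ((k : ℝ) + 1)) * (d - 1 / ((k : ℝ) + 1)) ≤
        (1 / ((k : ℝ) + 1)) * φ k (u (ψ k) - e j) := by
      have h8 : d = (1 / ((k : ℝ) + 1)) * d + (k : ℝ) * ((1 / ((k : ℝ) + 1)) * d) := by
        field_simp
        ring
      have h9 : (1 / ((k : ℝ) + 1)) * (d - 1 / ((k : ℝ) + 1)) =
        (1 / ((k : ℝ) + 1)) * d - (1 / ((k : ℝ) + 1)) ^ 2 := by ring
      rw [h9]
      linarith only [h3, h4, h8]
    exact le_of_mul_le_mul_left h7 (by (clear * -; positivity))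
  refine ⟨ψ, hψ, φ, hφ1, fun v hv => ?_⟩
  rw [Metric.tendsto_atTop]
  intro ε hε
  obtain ⟨y, hyD, hy⟩ := Metric.mem_closure_iff.1 (hD hv) (ε / 2) (by linarith only [hε])
  rw [he] at hyD
  obtain ⟨j, rfl⟩ := hyD
  obtain ⟨N, hN⟩ := Metric.tendsto_atTop.1 (tendsto_one_div_add_atTop_nhds_zero_nat (𝕜 := ℝ))
    (ε / 2) (by linarith only [hε])
  refine ⟨max N j, fun k hk => ?_⟩
  have hk1 : N ≤ k := (le_max_left _ _).trans hk
  have hk2 : j ≤ k := (le_max_right _ _).trans hk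
  have h1 := hN k hk1
  rw [dist_zero_right, Real.norm_of_nonneg (by (clear * -; positivity))] at h1
  rw [dist_eq_norm] at hy
  have h2 : φ k (u (ψ k) - v) = φ k (u (ψ k) - e j) - φ k (v - e j) := by
    rw [← map_sub]
    congr 1
    abel
  have h3 : ‖φ k (v - e j)‖ < ε / 2 := by
    calc ‖φ k (v - e j)‖ ≤ ‖φ k‖ * ‖v - e j‖ := (φ k).le_opNorm _
      _ ≤ 1 * ‖v - e j‖ := mul_le_mul_of_nonneg_right (hφ1 k) (norm_nonneg _)
      _ < ε / 2 := by linarith only [hy]
  rw [Real.norm_eq_abs] at h3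
  have h4 := abs_lt.1 h3
  have h5 := hlow k j hk2
  have h6 := hup k v hv
  rw [Real.dist_eq, abs_lt]
  constructor
  · linarith only [h1, h2, h4, h5]
  · linarith only [hε, h6]

/-- The main theorem in terms of ambient maps. -/
theorem exists_fixed_point [CompleteSpace X]
    (hX : Function.Surjective (NormedSpace.inclusionInDoubleDual ℝ X))
    {C : Set X} (hne : C.Nonempty) (hcl : IsClosed C) (hb : Bornology.IsBounded C)
    (hco : Convex ℝ C) {T : X → X} (hTm : MapsTo T C C)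
    (hT : ∀ x ∈ C, ∀ y ∈ C, ‖T x - T y‖ ≤ ‖x - y‖) : ∃ x ∈ C, T x = x := by
  by_contra hcon
  push Not at hcon
  -- separable minimal invariant set
  obtain ⟨C', hC'C, hC'ne, hC'cl, hC'co, hC'T, hC'sep⟩ :=
    exists_separable_invariant hcl hco hne hTm hT
  obtain ⟨K, hKC', hK⟩ := exists_minInv hX (hb.subset hC'C) hC'cl hC'co hC'ne hC'T
  have hKC : K ⊆ C := hKC'.trans hC'C
  have hKb : Bornology.IsBounded K := hb.subset hKC
  have hKsep : TopologicalSpace.IsSeparable K := hC'sep.mono hKC'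
  have hTK : ∀ x ∈ K, ∀ y ∈ K, ‖T x - T y‖ ≤ ‖x - y‖ :=
    fun x hx y hy => hT x (hKC hx) y (hKC hy)
  set d : ℝ := Metric.diam K with hd
  have hle : ∀ a ∈ K, ∀ b ∈ K, ‖a - b‖ ≤ d := by
    intro a ha b hb'
    rw [← dist_eq_norm]
    exact Metric.dist_le_diam_of_mem hKb ha hb'
  have hd0 : 0 < d := by
    obtain ⟨z, hz⟩ := hK.ne
    have h1 : 0 < ‖T z - z‖ := by
      rw [norm_pos_iff, sub_ne_zero]
      exact hcon z (hKC hz)
    exact lt_of_lt_of_le h1 (hle _ (hK.maps hz) _ hz)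
  -- approximate fixed points, weakly convergent
  have hap : ∀ n : ℕ, ∃ x ∈ K, ‖T x - x‖ ≤ 1 / ((n : ℝ) + 1) := fun n =>
    exists_approx_fixed hK.ne hKb hK.cl hK.co hK.maps hTK (by (clear * -; positivity))
  choose y hyK hyT using hap
  obtain ⟨v0, hv0, ψ0, hψ0, hweak⟩ := exists_weak_subseq hX hKb hK.cl hK.co hKsep y hyK
  have hyT0 : Tendsto (fun n => ‖T (y (ψ0 n)) - y (ψ0 n)‖) atTop (𝓝 0) := by
    have h1 : Tendsto (fun n => ‖T (y n) - y n‖) atTop (𝓝 0) :=
      squeeze_zero (fun n => norm_nonneg _) hyT tendsto_one_div_add_atTop_nhds_zero_nat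
    exact h1.comp hψ0.tendsto_atTop
  -- approximate by generated maps at `v0`
  have hgen : ∀ n : ℕ, ∃ R : X → X, Gen T R ∧ ‖R v0 - y (ψ0 n)‖ ≤ 1 / ((n : ℝ) + 1) :=
    fun n => hK.dense hTK hv0 (hyK _) (by (clear * -; positivity))
  choose R hRG hRy using hgen
  have hRm : ∀ n, MapsTo (R n) K K := fun n => (hRG n).mapsTo hK.co hK.maps
  have hRne : ∀ n, ∀ x ∈ K, ∀ y ∈ K, ‖R n x - R n y‖ ≤ ‖x - y‖ :=
    fun n => (hRG n).ne hK.co hK.maps hTK
  have hRK : ∀ n, R n v0 ∈ K := fun n => hRm n hv0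
  have hRy0 : Tendsto (fun n => ‖R n v0 - y (ψ0 n)‖) atTop (𝓝 0) :=
    squeeze_zero (fun n => norm_nonneg _) hRy tendsto_one_div_add_atTop_nhds_zero_nat
  have huT : Tendsto (fun n => ‖T (R n v0) - R n v0‖) atTop (𝓝 0) := by
    have h1 : Tendsto (fun n => ‖R n v0 - y (ψ0 n)‖ + ‖T (y (ψ0 n)) - y (ψ0 n)‖ +
        ‖R n v0 - y (ψ0 n)‖) atTop (𝓝 0) := by
      simpa only [add_zero] using (hRy0.add hyT0).add hRy0
    refine squeeze_zero (fun n => norm_nonneg _) (fun n => ?_) h1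
    calc ‖T (R n v0) - R n v0‖
        = ‖(T (R n v0) - T (y (ψ0 n))) + (T (y (ψ0 n)) - y (ψ0 n)) - (R n v0 - y (ψ0 n))‖ := by
          congr 1; abel
      _ ≤ ‖(T (R n v0) - T (y (ψ0 n))) + (T (y (ψ0 n)) - y (ψ0 n))‖ + ‖R n v0 - y (ψ0 n)‖ :=
        norm_sub_le _ _
      _ ≤ ‖T (R n v0) - T (y (ψ0 n))‖ + ‖T (y (ψ0 n)) - y (ψ0 n)‖ + ‖R n v0 - y (ψ0 n)‖ :=
        add_le_add (norm_add_le _ _) le_rfl
      _ ≤ _ := add_le_add (add_le_add (hTK _ (hRK n) _ (hyK _)) le_rfl) le_rfl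
  have huweak : ∀ f : StrongDual ℝ X, Tendsto (fun n => f (R n v0)) atTop (𝓝 (f v0)) := by
    intro f
    have h1 : Tendsto (fun n => ‖f‖ * ‖R n v0 - y (ψ0 n)‖) atTop (𝓝 0) := by
      simpa only [mul_zero] using hRy0.const_mul ‖f‖
    have h2 : Tendsto (fun n => f (R n v0 - y (ψ0 n))) atTop (𝓝 0) :=
      squeeze_zero_norm (fun n => f.le_opNorm _) h1
    have h3 := h2.add (hweak f)
    rw [zero_add] at h3
    refine h3.congr fun n => ?_
    rw [map_sub, sub_add_cancel]
  -- functionals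
  obtain ⟨ψ, hψ, φ, hφ1, hφ⟩ := exists_functionals hK.co hK.ne hKsep d (fun n => R n v0)
    (fun n v hv => hle _ (hRK n) _ hv)
    (fun v hv => goebel_karlovitz hX hK hKb hTK (fun n => R n v0) hRK huT hv)
  -- normalize
  have hdinv : 0 < d⁻¹ := inv_pos.2 hd0
  have hback : ∀ x : X, d • (d⁻¹ • (x - v0)) + v0 = x := by
    intro x
    rw [smul_smul, mul_inv_cancel₀ hd0.ne', one_smul, sub_add_cancel]
  set C1 : Set X := {x | d • x + v0 ∈ K} with hC1
  have hR0 : ∀ n : ℕ, d⁻¹ • (R (ψ n) (d • (0 : X) + v0) - v0) = d⁻¹ • (R (ψ n) v0 - v0) := by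
    intro n
    rw [smul_zero, zero_add]
  have hφ0 : Tendsto (fun k => φ k (R (ψ k) v0 - v0)) atTop (𝓝 d) := hφ v0 hv0
  have hφC1 : ∀ v ∈ C1, Tendsto (fun n => φ n v) atTop (𝓝 0) := by
    intro v hv
    have h1 := hφ (d • v + v0) hv
    have h2 : Tendsto (fun k => d⁻¹ * (φ k (R (ψ k) v0 - v0) - φ k (R (ψ k) v0 - (d • v + v0))))
        atTop (𝓝 0) := by
      simpa only [map_sub, map_add, map_smul, smul_eq_mul, sub_sub_sub_cancel_left, add_sub_cancel_right, sub_self,     mul_zero] using (hφ0.sub h1).const_mul d⁻¹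
    refine h2.congr fun k => ?_
    rw [← map_sub, ← smul_eq_mul, ← map_smul]
    congr 1
    rw [sub_sub_sub_cancel_left, add_sub_cancel_right, smul_smul, inv_mul_cancel₀ hd0.ne', one_smul]
  obtain ⟨ν, hν, g, hg1, hg2, hg3⟩ := core C1
    (by
      intro x hx z hz a b ha hb' hab
      change d • (a • x + b • z) + v0 ∈ K
      have h1 : d • (a • x + b • z) + v0 = a • (d • x + v0) + b • (d • z + v0) := by
        have h2 : v0 = a • v0 + b • v0 := by rw [← add_smul, hab, one_smul]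
        calc d • (a • x + b • z) + v0 = d • (a • x + b • z) + (a • v0 + b • v0) := by rw [← h2]
          _ = a • (d • x + v0) + b • (d • z + v0) := by
            rw [smul_add, smul_add, smul_add, smul_comm d a, smul_comm d b]; abel
      rw [h1]
      exact hK.co hx hz ha hb' hab)
    (by
      change d • (0 : X) + v0 ∈ K
      rw [smul_zero, zero_add]
      exact hv0)
    (by
      intro x hx z hz
      have h1 := hle _ hx _ hz
      rw [add_sub_add_right_eq_sub, ← smul_sub, norm_smul, Real.norm_of_nonneg hd0.le] at h1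
      exact le_of_mul_le_mul_left (by linarith only [h1]) hd0)
    (fun n x => d⁻¹ • (R (ψ n) (d • x + v0) - v0))
    (by
      intro n x hx
      change d • (d⁻¹ • (R (ψ n) (d • x + v0) - v0)) + v0 ∈ K
      rw [hback]
      exact hRm _ hx)
    (by
      intro n x hx z hz
      rw [← smul_sub, sub_sub_sub_cancel_right, norm_smul, Real.norm_of_nonneg hdinv.le]
      have h1 := hRne (ψ n) _ hx _ hz
      rw [add_sub_add_right_eq_sub, ← smul_sub, norm_smul, Real.norm_of_nonneg hd0.le] at h1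
      rw [inv_mul_le_iff₀ hd0]
      exact h1)
    (by
      intro k
      have h1 : Tendsto (fun n => ‖R (ψ k) (R n v0) - R n v0‖) atTop (𝓝 0) :=
        (hRG (ψ k)).afps hK.co hK.maps hTK (fun n => R n v0) hRK huT
      have h2 : Tendsto (fun n => d⁻¹ * ‖R (ψ k) (R (ψ n) v0) - R (ψ n) v0‖) atTop (𝓝 0) := by
        simpa only [Function.comp_apply, mul_zero] using (h1.comp hψ.tendsto_atTop).const_mul d⁻¹
      refine h2.congr fun n => ?_
      rw [hR0, hback, ← smul_sub, sub_sub_sub_cancel_right, norm_smul, Real.norm_of_nonneg hdinv.le])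
    φ hφ1
    (by
      have h1 : Tendsto (fun k => d⁻¹ * φ k (R (ψ k) v0 - v0)) atTop (𝓝 1) := by
        simpa only [map_sub, ne_eq, hd0.ne', not_false_eq_true, inv_mul_cancel₀] using hφ0.const_mul d⁻¹
      refine h1.congr fun k => ?_
      rw [hR0, map_smul, smul_eq_mul])
    hφC1
    (by
      intro f
      have h1 : Tendsto (fun n => d⁻¹ * (f (R (ψ n) v0) - f v0)) atTop (𝓝 0) := by
        simpa only [Function.comp_apply, sub_self, mul_zero] using     (((huweak f).comp hψ.tendsto_atTop).sub_const (f v0)).const_mul d⁻¹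
      refine h1.congr fun n => ?_
      rw [hR0, map_smul, map_sub, smul_eq_mul])
  exact chain_false hX C1 φ hφ1 hφC1 ν hν g hg1 hg2 hg3

end Main

end Vale.Agent.P079
end
end

section

section

open Filter Topology Set

namespace Vale.Agent.P079

/-- A space whose canonical embedding into the bidual is onto is complete. -/
theorem complete_of_reflexive (Y : Type*) [NormedAddCommGroup Y] [NormedSpace ℝ Y]
    (hY : Function.Surjective (NormedSpace.inclusionInDoubleDual ℝ Y)) : CompleteSpace Y := by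
  let e : Y ≃ₗᵢ[ℝ] StrongDual ℝ (StrongDual ℝ Y) :=
    LinearIsometryEquiv.ofSurjective (NormedSpace.inclusionInDoubleDualLi ℝ) hY
  exact e.toIsometryEquiv.completeSpace

/-- Fixed points for closed bounded convex sets with reflexive closed span. -/
theorem exists_fixed_point_span {X : Type*} [NormedAddCommGroup X] [NormedSpace ℝ X]
    {C : Set X}
    (hX : Function.Surjective
      (NormedSpace.inclusionInDoubleDual ℝ (Submodule.span ℝ C).topologicalClosure))
    (hne : C.Nonempty) (hcl : IsClosed C) (hb : Bornology.IsBounded C)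
    (hco : Convex ℝ C) {T : X → X} (hTm : MapsTo T C C)
    (hT : ∀ x ∈ C, ∀ y ∈ C, ‖T x - T y‖ ≤ ‖x - y‖) : ∃ x ∈ C, T x = x := by
  classical
  set Y : Submodule ℝ X := (Submodule.span ℝ C).topologicalClosure with hYdef
  have hCY : ∀ x ∈ C, x ∈ Y := fun x hx =>
    Submodule.le_topologicalClosure _ (Submodule.subset_span hx)
  have hcomp : CompleteSpace Y := complete_of_reflexive Y hX
  have h := exists_fixed_point (X := Y) hX (C := (fun y : Y => (y : X)) ⁻¹' C)
    (by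
      obtain ⟨z, hz⟩ := hne
      exact ⟨⟨z, hCY z hz⟩, hz⟩)
    (hcl.preimage continuous_subtype_val)
    (by
      obtain ⟨M, hM⟩ := hb.exists_norm_le
      rw [isBounded_iff_forall_norm_le]
      exact ⟨M, fun y hy => hM _ hy⟩)
    (by
      intro x hx y hy a b ha hb' hab
      change ((a • x + b • y : Y) : X) ∈ C
      rw [Submodule.coe_add, Submodule.coe_smul, Submodule.coe_smul]
      exact hco hx hy ha hb' hab)
    (T := fun y => if h : (y : X) ∈ C then ⟨T y, hCY _ (hTm h)⟩ else y)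
    (by
      intro y hy
      have hy' : (y : X) ∈ C := hy
      change (((if h : (y : X) ∈ C then ⟨T y, hCY _ (hTm h)⟩ else y : Y)) : X) ∈ C
      rw [dif_pos hy']
      exact hTm hy')
    (by
      intro x hx y hy
      have hx' : (x : X) ∈ C := hx
      have hy' : (y : X) ∈ C := hy
      rw [dif_pos hx', dif_pos hy']
      exact hT _ hx' _ hy')
  obtain ⟨y, hy, hfix⟩ := h
  have hy' : (y : X) ∈ C := hy
  rw [dif_pos hy'] at hfix
  exact ⟨y, hy', congrArg Subtype.val hfix⟩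

end Vale.Agent.P079
end
end
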